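import Vale.Agent.P042.H954.PrimeS
import Vale.Agent.P042.H74.Tiny2

/-! P042, row S.5: the kernel `kN f p (x - y)` of 74 satisfies the hypotheses of `prime_S`. -/

set_option autoImplicit false

namespace Vale.Agent.P042.H954

open Finset Polynomial Vale.Agent.P042.H74 Vale.Agent.P042.SS

/-- a finite type enumerated by the residues `0, …, p - 1` -/
structure Rs (X : Type*) [Fintype X] (p : ℕ) (v : X → ℕ) : Prop where
  inj : Function.Injective v
  sum : ∀ g : ℕ → ℝ, ∑ x, g (v x) = ∑ i ∈ range p, g i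

theorem Rs.card {X : Type*} [Fintype X] {p : ℕ} {v : X → ℕ} (h : Rs X p v) :
    (Fintype.card X : ℝ) = p := by
  have := h.sum fun _ => 1
  simpa using this

theorem rs_fin (p : ℕ) : Rs (Fin p) p (fun x => (x : ℕ)) where
  inj := Fin.val_injective
  sum := fun g => (Finset.sum_range g).symm

theorem rs_zmod (p : ℕ) [NeZero p] : Rs (ZMod p) p (fun x => x.val) where
  inj := ZMod.val_injective p
  sum := fun g => by
    rw [Finset.sum_range]
    exact Fintype.sum_equiv (ZMod.finEquiv p).symm.toEquiv _ _ fun x => by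
      obtain ⟨n, rfl⟩ : ∃ n, p = n + 1 := ⟨p - 1, by have := NeZero.ne p; omega⟩
      rfl

section kernel

variable {f : ℤ[X]} {PP : Finset ℕ} {p : ℕ}

theorem kN_per' (f : ℤ[X]) (p : ℕ) (t s : ℤ) (h : (p : ℤ) ∣ t - s) : kN f p t = kN f p s := by
  obtain ⟨c, hc⟩ := h
  have hN : ∀ (n : ℕ) (r : ℤ), kN f p (r + p * n) = kN f p r := by
    intro n
    induction n with
    | zero => intro r; simp
    | succ n ih =>
      intro r
      have : r + (p : ℤ) * ((n + 1 : ℕ) : ℤ) = (r + p * n) + p := by push_cast; ring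
      rw [this, kN_per, ih]
  have ht : t = s + p * c := by linarith
  rcases le_or_gt 0 c with h0 | h0
  · obtain ⟨n, rfl⟩ := Int.eq_ofNat_of_zero_le h0
    rw [ht]
    exact hN n s
  · obtain ⟨n, hn⟩ := Int.eq_ofNat_of_zero_le (show 0 ≤ -c by omega)
    have : s = t + p * n := by rw [ht, ← hn]; ring
    rw [this]
    exact (hN n t).symm

/-- `∑_{t mod p} kN f p t = 0` -/
theorem sum_kN (hp : p.Prime) (hd : 0 < dns f p) :
    ∑ t ∈ range p, kN f p (t : ℤ) = 0 := by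
  classical
  have hp0 : (0:ℝ) < p := by exact_mod_cast hp.pos
  unfold kN
  rw [sum_sub_distrib, ← sum_div, sum_const, card_range, nsmul_eq_mul, mul_one, sub_eq_zero,
    div_eq_iff hd.ne']
  have h1 : ((p : ℝ) * dns f p)
      = (((range p).filter (fun z : ℕ => ¬ (p : ℤ) ∣ (derivative f).eval (z : ℤ))).card : ℝ) := by
    unfold dns
    field_simp
  rw [h1]
  -- partition according to the value
  have h2 : ((range p).filter (fun z : ℕ => ¬ (p : ℤ) ∣ (derivative f).eval (z : ℤ))).card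
      = ∑ t ∈ range p, ((range p).filter (fun z : ℕ => ¬ (p : ℤ) ∣ (derivative f).eval (z : ℤ) ∧
        (p : ℤ) ∣ f.eval (z : ℤ) - (t : ℤ))).card := by
    rw [card_eq_sum_card_fiberwise (f := fun z : ℕ => (f.eval (z : ℤ) % p).toNat) (t := range p)]
    · apply sum_congr rfl
      intro t ht
      rw [filter_filter]
      congr 1
      apply filter_congr
      intro z _
      rw [mem_range] at ht
      have hpz : (0 : ℤ) < p := by exact_mod_cast hp.pos
      have n1 := Int.emod_nonneg (f.eval (z : ℤ)) hpz.ne'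
      have n2 := Int.emod_lt_of_pos (f.eval (z : ℤ)) hpz
      have key : (f.eval (z : ℤ) % p).toNat = t ↔ (p : ℤ) ∣ f.eval (z : ℤ) - (t : ℤ) := by
        constructor
        · intro h
          have h3 : f.eval (z : ℤ) % p = t := by omega
          rw [← h3]
          exact Int.dvd_self_sub_emod
        · intro h
          have h3 : f.eval (z : ℤ) % p = (t : ℤ) % p := (Int.modEq_iff_dvd.mpr h).symm
          rw [Int.emod_eq_of_lt (a := (t : ℤ)) (by omega) (by exact_mod_cast ht)] at h3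
          omega
      rw [key]
    · intro z _
      have hpz : (0 : ℤ) < p := by exact_mod_cast hp.pos
      have n1 := Int.emod_nonneg (f.eval (z : ℤ)) hpz.ne'
      have n2 := Int.emod_lt_of_pos (f.eval (z : ℤ)) hpz
      simp only [coe_range, Set.mem_Iio]
      omega
  rw [h2]
  push_cast
  rfl

/-- reindexing of a periodic function -/
theorem sum_perm {p : ℕ} (hp : 0 < p) (G : ℤ → ℝ) (hG : ∀ s t : ℤ, (p : ℤ) ∣ t - s → G t = G s)
    (σ : ℕ → ℤ) (hσ : ∀ i < p, ∀ j < p, (p : ℤ) ∣ σ i - σ j → i = j) :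
    ∑ j ∈ range p, G (σ j) = ∑ t ∈ range p, G (t : ℤ) := by
  classical
  have hpz : (0 : ℤ) < p := by exact_mod_cast hp
  have h0 : ∀ i : ℕ, ((((σ i % p).toNat : ℕ)) : ℤ) = σ i % p := fun i =>
    Int.toNat_of_nonneg (Int.emod_nonneg _ hpz.ne')
  have hd : ∀ i : ℕ, (p : ℤ) ∣ σ i - σ i % p := fun i => Int.dvd_self_sub_emod
  have hinj : Set.InjOn (fun i => (σ i % p).toNat) (range p : Finset ℕ) := by
    intro i hi j hj hij
    rw [coe_range, Set.mem_Iio] at hi hj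
    apply hσ i hi j hj
    have h1 : σ i % p = σ j % p := by
      rw [← h0 i, ← h0 j]
      exact congrArg _ hij
    have h2 := dvd_sub (hd i) (hd j)
    rw [h1] at h2
    simpa using h2
  have himg : (range p).image (fun i => (σ i % p).toNat) = range p := by
    apply eq_of_subset_of_card_le
    · intro t ht
      rw [mem_image] at ht
      obtain ⟨i, _, rfl⟩ := ht
      rw [mem_range]
      have n1 := Int.emod_nonneg (σ i) hpz.ne'
      have n2 := Int.emod_lt_of_pos (σ i) hpz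
      omega
    · rw [card_image_of_injOn hinj]
  conv_rhs => rw [← himg]
  rw [sum_image hinj]
  apply sum_congr rfl
  intro i _
  apply hG
  rw [h0 i]
  exact hd i

theorem sum_kN_sub (hp : p.Prime) (hd : 0 < dns f p) (a : ℤ) :
    ∑ j ∈ range p, kN f p (a - (j : ℤ)) = 0 := by
  rw [sum_perm hp.pos (kN f p) (fun s t h => kN_per' f p t s h) (fun j => a - (j : ℤ)),
    sum_kN hp hd]
  intro i hi j hj h
  have h1 : (p : ℤ) ∣ (j : ℤ) - i := by
    have : (a - (i : ℤ)) - (a - (j : ℤ)) = j - i := by ring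
    rwa [this] at h
  have h3 : (i : ℤ) % p = (j : ℤ) % p := Int.modEq_iff_dvd.mpr h1
  rw [Int.emod_eq_of_lt (a := (i : ℤ)) (by omega) (by exact_mod_cast hi),
    Int.emod_eq_of_lt (a := (j : ℤ)) (by omega) (by exact_mod_cast hj)] at h3
  exact_mod_cast h3

theorem sum_kN_sub' (hp : p.Prime) (hd : 0 < dns f p) (a : ℤ) :
    ∑ j ∈ range p, kN f p ((j : ℤ) - a) = 0 := by
  rw [sum_perm hp.pos (kN f p) (fun s t h => kN_per' f p t s h) (fun j => (j : ℤ) - a),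
    sum_kN hp hd]
  intro i hi j hj h
  have h1 : (p : ℤ) ∣ (i : ℤ) - j := by
    have : ((i : ℤ) - a) - ((j : ℤ) - a) = i - j := by ring
    rwa [this] at h
  have h3 : (j : ℤ) % p = (i : ℤ) % p := Int.modEq_iff_dvd.mpr h1
  rw [Int.emod_eq_of_lt (a := (i : ℤ)) (by omega) (by exact_mod_cast hi),
    Int.emod_eq_of_lt (a := (j : ℤ)) (by omega) (by exact_mod_cast hj)] at h3
  exact_mod_cast h3.symm

/-- at most `deg f` solutions of `f z = t` mod `p` -/
theorem sol_card (hp : p.Prime) (hnc : ∃ j : ℕ, 1 ≤ j ∧ ¬ (p : ℤ) ∣ f.coeff j) (t : ℤ) :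
    ((range p).filter (fun z : ℕ => (p : ℤ) ∣ f.eval (z : ℤ) - t)).card ≤ f.natDegree := by
  classical
  have : Fact p.Prime := ⟨hp⟩
  set g : (ZMod p)[X] := (f - C t).map (Int.castRingHom (ZMod p)) with hg
  have hgd : g.natDegree ≤ f.natDegree := by
    refine natDegree_map_le.trans ?_
    refine (natDegree_sub_le _ _).trans ?_
    rw [natDegree_C]
    simp
  obtain ⟨j, hj1, hj⟩ := hnc
  have hg0 : g ≠ 0 := by
    intro h
    have h1 : g.coeff j = 0 := by rw [h, coeff_zero]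
    rw [hg, coeff_map, coeff_sub, coeff_C, if_neg (by omega), sub_zero] at h1
    apply hj
    rw [← ZMod.intCast_zmod_eq_zero_iff_dvd]
    simpa using h1
  have hsub : ((range p).filter (fun z : ℕ => (p : ℤ) ∣ f.eval (z : ℤ) - t)).card ≤
      g.roots.toFinset.card := by
    refine card_le_card_of_injOn (fun r : ℕ => (r : ZMod p)) ?_ ?_
    · intro r hr
      have hr' := mem_filter.1 (mem_coe.1 hr)
      rw [mem_coe, Multiset.mem_toFinset, mem_roots hg0, IsRoot.def, hg]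
      have h1 := (ZMod.intCast_zmod_eq_zero_iff_dvd (f.eval (r : ℤ) - t) p).2 hr'.2
      have h2 : eval (r : ZMod p) (map (Int.castRingHom (ZMod p)) (f - C t)) =
          ((f.eval (r : ℤ) - t : ℤ) : ZMod p) := by
        simp
      rw [h2]
      exact h1
    · intro a ha b hb hab
      have ha' := mem_range.1 (mem_filter.1 (mem_coe.1 ha)).1
      have hb' := mem_range.1 (mem_filter.1 (mem_coe.1 hb)).1
      have h1 := (ZMod.natCast_eq_natCast_iff' a b p).1 hab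
      rwa [Nat.mod_eq_of_lt ha', Nat.mod_eq_of_lt hb'] at h1
  exact hsub.trans ((Multiset.toFinset_card_le _).trans ((card_roots' _).trans hgd))

theorem kN_le (hp : p.Prime) (hnc : ∃ j : ℕ, 1 ≤ j ∧ ¬ (p : ℤ) ∣ f.coeff j)
    (hd : 1 / 2 ≤ dns f p) (t : ℤ) : kN f p t ≤ 2 * f.natDegree - 1 := by
  classical
  unfold kN
  have h1 : (((range p).filter (fun z : ℕ => ¬ (p : ℤ) ∣ (derivative f).eval (z : ℤ) ∧
    (p : ℤ) ∣ f.eval (z : ℤ) - t)).card : ℝ) ≤ f.natDegree := by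
    have h2 : ((range p).filter (fun z : ℕ => ¬ (p : ℤ) ∣ (derivative f).eval (z : ℤ) ∧
      (p : ℤ) ∣ f.eval (z : ℤ) - t)).card ≤ f.natDegree :=
      (card_le_card (fun z hz => by
        rw [mem_filter] at hz ⊢
        exact ⟨hz.1, hz.2.2⟩)).trans (sol_card hp hnc t)
    exact_mod_cast h2
  have hd0 : 0 < dns f p := by linarith
  have h3 : (((range p).filter (fun z : ℕ => ¬ (p : ℤ) ∣ (derivative f).eval (z : ℤ) ∧
    (p : ℤ) ∣ f.eval (z : ℤ) - t)).card : ℝ) / dns f p ≤ 2 * f.natDegree := by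
    rw [div_le_iff₀ hd0]
    have : (0:ℝ) ≤ f.natDegree := Nat.cast_nonneg _
    nlinarith
  linarith

end kernel

/-- extension of a function on `X` to the integers -/
theorem Rs.ext {X : Type*} [Fintype X] {p : ℕ} {v : X → ℕ} (h : Rs X p v) (f : X → ℝ) :
    ∃ φ : ℤ → ℝ, ∀ x, φ (v x : ℤ) = f x := by
  classical
  have hi : Function.Injective (fun x => (v x : ℤ)) := fun a b hab => h.inj (by
    simpa using hab)
  exact ⟨Function.extend (fun x => (v x : ℤ)) f 0, fun x => hi.extend_apply f 0 x⟩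

/-- operator bound of the kernel with respect to the uniform weights -/
theorem kN_op {f : ℤ[X]} {PP : Finset ℕ} (hPP : NS f PP) {p : ℕ} (hpP : p ∈ PP) {ρ : ℝ}
    (hρ : 0 ≤ ρ) (hG : ∀ a : ℤ, IsCoprime a (p : ℤ) → ‖GamN f PP a p‖ ≤ ρ)
    {X Y : Type*} [Fintype X] [Fintype Y] {v : X → ℕ} {w : Y → ℕ} (hX : Rs X p v)
    (hY : Rs Y p w) :
    OpB (fun _ : X => (Fintype.card X : ℝ)⁻¹) (fun _ : Y => (Fintype.card Y : ℝ)⁻¹)
      (fun x y => kN f p ((v x : ℤ) - w y)) ρ := by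
  intro f1 g1
  obtain ⟨φ, hφ⟩ := hX.ext f1
  obtain ⟨ψ, hψ⟩ := hY.ext g1
  have hp0 : (0:ℝ) < p := by exact_mod_cast (hPP p hpP).1.pos
  rw [hX.card, hY.card]
  have e1 : ∑ x, ∑ y, (p : ℝ)⁻¹ * (p : ℝ)⁻¹ * (f1 x * kN f p ((v x : ℤ) - w y) * g1 y)
      = (p : ℝ)⁻¹ * (p : ℝ)⁻¹ * ∑ i ∈ range p, ∑ j ∈ range p,
          φ i * ψ j * kN f p ((i : ℤ) - j) := by
    have h1 : ∀ i : ℕ, ∑ j ∈ range p, φ i * ψ j * kN f p ((i : ℤ) - j)
        = ∑ y, φ i * ψ (w y) * kN f p ((i : ℤ) - w y) := fun i =>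
      (hY.sum fun j => φ i * ψ j * kN f p ((i : ℤ) - j)).symm
    rw [sum_congr rfl fun i _ => h1 i,
      ← hX.sum fun i => ∑ y, φ i * ψ (w y) * kN f p ((i : ℤ) - w y), mul_sum]
    apply sum_congr rfl
    intro x _
    rw [mul_sum]
    apply sum_congr rfl
    intro y _
    rw [hφ, hψ]
    ring
  rw [e1, abs_mul, abs_of_pos (by positivity)]
  have h2 := kN_form f PP hPP p hpP ρ hρ hG φ ψ
  have e2 : nm (fun _ : X => (p : ℝ)⁻¹) f1 = √((p : ℝ)⁻¹ * ∑ i ∈ range p, φ i ^ 2) := by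
    unfold nm
    congr 1
    rw [← hX.sum fun i => φ i ^ 2, mul_sum]
    exact sum_congr rfl fun x _ => by rw [hφ]
  have e3 : nm (fun _ : Y => (p : ℝ)⁻¹) g1 = √((p : ℝ)⁻¹ * ∑ i ∈ range p, ψ i ^ 2) := by
    unfold nm
    congr 1
    rw [← hY.sum fun i => ψ i ^ 2, mul_sum]
    exact sum_congr rfl fun x _ => by rw [hψ]
  rw [e2, e3, Real.sqrt_mul (by positivity), Real.sqrt_mul (by positivity)]
  have h3 : √((p : ℝ)⁻¹) * √((p : ℝ)⁻¹) = (p : ℝ)⁻¹ := Real.mul_self_sqrt (by positivity)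
  calc (p : ℝ)⁻¹ * (p : ℝ)⁻¹ * |∑ i ∈ range p, ∑ j ∈ range p, φ i * ψ j * kN f p ((i : ℤ) - j)|
      ≤ (p : ℝ)⁻¹ * (p : ℝ)⁻¹ * (ρ * p * (√(∑ x ∈ range p, φ x ^ 2)
          * √(∑ y ∈ range p, ψ y ^ 2))) := mul_le_mul_of_nonneg_left h2 (by positivity)
    _ = ρ * (p : ℝ)⁻¹ * (√(∑ x ∈ range p, φ x ^ 2) * √(∑ y ∈ range p, ψ y ^ 2)) := by
        field_simp
    _ = _ := by
        have h4 : ∀ A B s : ℝ, s * s = (p : ℝ)⁻¹ → ρ * (p : ℝ)⁻¹ * (A * B)
            = ρ * (s * A) * (s * B) := by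
          intro A B s hs
          rw [← hs]
          ring
        exact h4 _ _ _ h3

/-- **the kernel of 74 at one prime, quality of target S** -/
theorem kN_SD {f : ℤ[X]} {PP : Finset ℕ} (hPP : NS f PP) {p : ℕ} (hpP : p ∈ PP) {ρ ε : ℝ}
    (hρ : 0 ≤ ρ) (hρ1 : ρ ≤ 1)
    (hG : ∀ a : ℤ, IsCoprime a (p : ℤ) → ‖GamN f PP a p‖ ≤ ρ)
    (hnc : ∃ j : ℕ, 1 ≤ j ∧ ¬ (p : ℤ) ∣ f.coeff j) (hd : 1 / 2 ≤ dns f p)
    (hε : 0 ≤ ε) (hε1 : ε ≤ 1 / 100) (hkε : 4 * f.natDegree * ε ≤ 1)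
    {X Y : Type*} [Fintype X] [Fintype Y] {v : X → ℕ} {w : Y → ℕ} (hX : Rs X p v)
    (hY : Rs Y p w) {ν : X → ℝ} {ν' : Y → ℝ}
    (h0 : ∀ x, 0 ≤ ν x) (h0' : ∀ y, 0 ≤ ν' y) (h1 : ∑ x, ν x = 1) (h1' : ∑ y, ν' y = 1)
    (hu : ∀ x, p * ν x ≤ 1 + ε) (hu' : ∀ y, p * ν' y ≤ 1 + ε) :
    SD ν ν' (fun x y => kN f p ((v x : ℤ) - w y)) ρ (2 * f.natDegree - 1) ε where
  hν := h0
  hν' := h0'
  sν := h1
  sν' := h1'
  uν := fun x => by
    have hp0 : (0:ℝ) < p := by exact_mod_cast (hPP p hpP).1.pos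
    rw [hX.card, ← div_eq_mul_inv, le_div_iff₀ hp0]
    linarith [hu x, mul_comm (ν x) (p:ℝ)]
  uν' := fun y => by
    have hp0 : (0:ℝ) < p := by exact_mod_cast (hPP p hpP).1.pos
    rw [hY.card, ← div_eq_mul_inv, le_div_iff₀ hp0]
    linarith [hu' y, mul_comm (ν' y) (p:ℝ)]
  ck := fun x => by
    rw [hY.sum fun j => kN f p ((v x : ℤ) - j)]
    exact sum_kN_sub (hPP p hpP).1 (hPP p hpP).2 _
  ck' := fun y => by
    rw [hX.sum fun j => kN f p ((j : ℤ) - w y)]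
    exact sum_kN_sub' (hPP p hpP).1 (hPP p hpP).2 _
  op := kN_op hPP hpP hρ hG hX hY
  lo := fun x y => neg_one_le_kN f p _
  up := fun x y => kN_le (hPP p hpP).1 hnc hd _
  ρ0 := hρ
  ρ1 := hρ1
  ε0 := hε
  ε1 := hε1
  Bε := by linarith

/-- the norm of the kernel, from the bound of the complete sum -/
theorem GamN_le {f : ℤ[X]} {PP : Finset ℕ} (hPP : NS f PP) {p : ℕ} (hpP : p ∈ PP)
    (hk1 : 1 ≤ f.natDegree) (hkp : 2 * f.natDegree ≤ p)
    (hnc : ∃ j : ℕ, 1 ≤ j ∧ ¬ (p : ℤ) ∣ f.coeff j) {a : ℤ}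
    (hG : ‖Gam f a p‖ ≤ f.natDegree / √(p : ℝ)) :
    ‖GamN f PP a p‖ ≤ 4 * f.natDegree / √(p : ℝ) ∧ 1 / 2 ≤ dns f p := by
  have hp := (hPP p hpP).1
  have hp0 : (0:ℝ) < p := by exact_mod_cast hp.pos
  have hp1 : (1:ℝ) ≤ p := by exact_mod_cast hp.one_lt.le
  have hkpr : (2:ℝ) * f.natDegree ≤ p := by exact_mod_cast hkp
  have hk1r : (1:ℝ) ≤ f.natDegree := by exact_mod_cast hk1
  have h1 := dns_ge f p hp hk1 (by omega) hnc
  have h2 : ((f.natDegree : ℝ) - 1) / p ≤ 1 / 2 := by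
    rw [div_le_iff₀ hp0]
    linarith
  have h3 := GamN_prime_norm f PP hPP p hpP _ (((f.natDegree : ℝ) - 1) / p) a hG
    (by linarith) h2
  refine ⟨h3.trans ?_, by linarith⟩
  have hs : √(p : ℝ) ≤ p := by
    rw [Real.sqrt_le_left hp0.le]
    nlinarith
  have hs0 : 0 < √(p : ℝ) := Real.sqrt_pos.mpr hp0
  have h4 : ((f.natDegree : ℝ) - 1) / p ≤ f.natDegree / √(p : ℝ) :=
    div_le_div₀ (by linarith) (by linarith) hs0 hs
  calc 2 * ((f.natDegree : ℝ) / √(p : ℝ) + ((f.natDegree : ℝ) - 1) / p)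
      ≤ 2 * ((f.natDegree : ℝ) / √(p : ℝ) + f.natDegree / √(p : ℝ)) := by linarith
    _ = 4 * f.natDegree / √(p : ℝ) := by ring

end Vale.Agent.P042.H954
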