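import Mathlib

/-! P042, block [D]: the one-body (doubly centred) kernel of one prime, #7680 (2)-(4). -/

namespace Vale.Agent.P042.H954

open Finset

/-- weighted `l2` norm -/
noncomputable def nm {X : Type*} [Fintype X] (w f : X → ℝ) : ℝ := √(∑ x, w x * f x ^ 2)

section norms

variable {X : Type*} [Fintype X]

theorem nm_nonneg (w f : X → ℝ) : 0 ≤ nm w f := Real.sqrt_nonneg _

theorem sum_sq_nonneg {w : X → ℝ} (hw : ∀ x, 0 ≤ w x) (f : X → ℝ) :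
    0 ≤ ∑ x, w x * f x ^ 2 :=
  Finset.sum_nonneg fun x _ => mul_nonneg (hw x) (sq_nonneg _)

theorem nm_sq {w : X → ℝ} (hw : ∀ x, 0 ≤ w x) (f : X → ℝ) :
    nm w f ^ 2 = ∑ x, w x * f x ^ 2 := Real.sq_sqrt (sum_sq_nonneg hw f)

theorem nm_le_of_sq {w f : X → ℝ} {c : ℝ} (hc : 0 ≤ c) (h : ∑ x, w x * f x ^ 2 ≤ c ^ 2) :
    nm w f ≤ c := Real.sqrt_le_iff.mpr ⟨hc, h⟩

/-- Cauchy-Schwarz -/
theorem cs {w : X → ℝ} (hw : ∀ x, 0 ≤ w x) (f g : X → ℝ) :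
    |∑ x, w x * (f x * g x)| ≤ nm w f * nm w g := by
  have h1 : (∑ x, w x * (f x * g x)) ^ 2 ≤ (∑ x, w x * f x ^ 2) * ∑ x, w x * g x ^ 2 := by
    have := Finset.sum_mul_sq_le_sq_mul_sq (s := (univ : Finset X))
      (fun x => √(w x) * f x) (fun x => √(w x) * g x)
    have e1 : ∀ x, √(w x) * f x * (√(w x) * g x) = w x * (f x * g x) := fun x => by
      have := Real.mul_self_sqrt (hw x); linear_combination (f x * g x) * this
    have e2 : ∀ x, (√(w x) * f x) ^ 2 = w x * f x ^ 2 := fun x => by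
      rw [mul_pow, Real.sq_sqrt (hw x)]
    have e3 : ∀ x, (√(w x) * g x) ^ 2 = w x * g x ^ 2 := fun x => by
      rw [mul_pow, Real.sq_sqrt (hw x)]
    simpa only [e1, e2, e3] using this
  have h2 : (nm w f * nm w g) ^ 2 = (∑ x, w x * f x ^ 2) * ∑ x, w x * g x ^ 2 := by
    rw [mul_pow, nm_sq hw, nm_sq hw]
  exact abs_le_of_sq_le_sq (by rw [h2]; exact h1) (mul_nonneg (nm_nonneg _ _) (nm_nonneg _ _))

theorem nm_add_le {w : X → ℝ} (hw : ∀ x, 0 ≤ w x) (f g : X → ℝ) :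
    nm w (fun x => f x + g x) ≤ nm w f + nm w g := by
  apply nm_le_of_sq (add_nonneg (nm_nonneg _ _) (nm_nonneg _ _))
  have h1 := (abs_le.mp (cs hw f g)).2
  have h2 := nm_sq hw f
  have h3 := nm_sq hw g
  have : ∑ x, w x * (f x + g x) ^ 2
      = (∑ x, w x * f x ^ 2) + 2 * (∑ x, w x * (f x * g x)) + ∑ x, w x * g x ^ 2 := by
    rw [Finset.mul_sum, ← Finset.sum_add_distrib, ← Finset.sum_add_distrib]
    exact Finset.sum_congr rfl fun x _ => by ring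
  rw [this, ← h2, ← h3]
  nlinarith

theorem nm_le_of_abs {w : X → ℝ} (hw : ∀ x, 0 ≤ w x) {f g : X → ℝ}
    (h : ∀ x, w x ≠ 0 → |f x| ≤ |g x|) : nm w f ≤ nm w g := by
  apply Real.sqrt_le_sqrt
  apply Finset.sum_le_sum
  intro x _
  by_cases hx : w x = 0
  · simp [hx]
  · exact mul_le_mul_of_nonneg_left (sq_le_sq.mpr (h x hx)) (hw x)

theorem nm_smul {w : X → ℝ} (c : ℝ) (f : X → ℝ) : nm w (fun x => c * f x) = |c| * nm w f := by
  have : ∑ x, w x * (c * f x) ^ 2 = c ^ 2 * ∑ x, w x * f x ^ 2 := by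
    rw [Finset.mul_sum]; exact Finset.sum_congr rfl fun x _ => by ring
  unfold nm
  rw [this, Real.sqrt_mul (sq_nonneg c), Real.sqrt_sq_eq_abs]

theorem nm_const {w : X → ℝ} (hs : ∑ x, w x = 1) (c : ℝ) : nm w (fun _ => c) = |c| := by
  unfold nm
  rw [← Finset.sum_mul, hs, one_mul, Real.sqrt_sq_eq_abs]

theorem nm_le_of_bd {w : X → ℝ} (hw : ∀ x, 0 ≤ w x) (hs : ∑ x, w x = 1) {f : X → ℝ} {c : ℝ}
    (hc : 0 ≤ c) (h : ∀ x, w x ≠ 0 → |f x| ≤ c) : nm w f ≤ c := by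
  calc nm w f ≤ nm w (fun _ => c) :=
        nm_le_of_abs hw fun x hx => by rw [abs_of_nonneg hc]; exact h x hx
    _ = |c| := nm_const hs c
    _ = c := abs_of_nonneg hc

/-- change of weights -/
theorem nm_weight {w v : X → ℝ} (hw : ∀ x, 0 ≤ w x) {D : ℝ} (hD : 0 ≤ D)
    (h : ∀ x, v x ≤ D * w x) (f : X → ℝ) : nm v f ≤ √D * nm w f := by
  apply nm_le_of_sq (mul_nonneg (Real.sqrt_nonneg _) (nm_nonneg _ _))
  rw [mul_pow, Real.sq_sqrt hD, nm_sq hw, Finset.mul_sum]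
  apply Finset.sum_le_sum
  intro x _
  have := mul_le_mul_of_nonneg_right (h x) (sq_nonneg (f x))
  linarith [mul_assoc D (w x) (f x ^ 2)]

/-- `v f / w` has `w`-norm at most `√D` times the `v`-norm of `f`. -/
theorem nm_div {w v : X → ℝ} (hw : ∀ x, 0 ≤ w x) (hv : ∀ x, 0 ≤ v x) {D : ℝ} (hD : 0 ≤ D)
    (h : ∀ x, v x ≤ D * w x) (f : X → ℝ) :
    nm w (fun x => v x * f x / w x) ≤ √D * nm v f := by
  apply nm_le_of_sq (mul_nonneg (Real.sqrt_nonneg _) (nm_nonneg _ _))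
  rw [mul_pow, Real.sq_sqrt hD, nm_sq hv, Finset.mul_sum]
  apply Finset.sum_le_sum
  intro x _
  by_cases hx : w x = 0
  · simp only [hx, zero_mul]
    exact mul_nonneg hD (mul_nonneg (hv x) (sq_nonneg _))
  · have hx' : 0 < w x := lt_of_le_of_ne (hw x) (Ne.symm hx)
    have : w x * (v x * f x / w x) ^ 2 = (v x / w x) * (v x * f x ^ 2) := by
      field_simp
    rw [this]
    apply mul_le_mul_of_nonneg_right _ (mul_nonneg (hv x) (sq_nonneg _))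
    rw [div_le_iff₀ hx']
    exact h x

/-- variance is at most the second moment -/
theorem nm_centre {w : X → ℝ} (hw : ∀ x, 0 ≤ w x) (hs : ∑ x, w x = 1) (g : X → ℝ) :
    nm w (fun x => g x - ∑ z, w z * g z) ≤ nm w g := by
  apply nm_le_of_sq (nm_nonneg _ _)
  rw [nm_sq hw]
  have : ∑ x, w x * (g x - ∑ z, w z * g z) ^ 2
      = (∑ x, w x * g x ^ 2) - (∑ z, w z * g z) ^ 2 := by
    set m := ∑ z, w z * g z with hm
    have : ∀ x, w x * (g x - m) ^ 2 = w x * g x ^ 2 - 2 * m * (w x * g x) + m ^ 2 * w x :=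
      fun x => by ring
    simp only [this]
    rw [Finset.sum_add_distrib, Finset.sum_sub_distrib, ← Finset.mul_sum, ← Finset.mul_sum, hs,
      ← hm]
    ring
  rw [this]
  linarith [sq_nonneg (∑ z, w z * g z)]

end norms

/-! ### the kernel -/

variable {X Y : Type*} [Fintype X] [Fintype Y]

/-- bilinear operator bound with weights `w, w'` -/
def OpB (w : X → ℝ) (w' : Y → ℝ) (k : X → Y → ℝ) (ρ : ℝ) : Prop :=
  ∀ f : X → ℝ, ∀ g : Y → ℝ, |∑ x, ∑ y, w x * w' y * (f x * k x y * g y)| ≤ ρ * nm w f * nm w' g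

/-- change of the reference weights in the operator bound -/
theorem OpB.change {u v : X → ℝ} {u' v' : Y → ℝ} {k : X → Y → ℝ} {ρ D : ℝ}
    (h : OpB u u' k ρ) (hu : ∀ x, 0 ≤ u x) (hu' : ∀ y, 0 ≤ u' y) (hv : ∀ x, 0 ≤ v x)
    (hv' : ∀ y, 0 ≤ v' y) (hD : 0 ≤ D) (hρ : 0 ≤ ρ) (d : ∀ x, v x ≤ D * u x)
    (d' : ∀ y, v' y ≤ D * u' y) : OpB v v' k (ρ * D) := by
  intro f g
  have h1 := h (fun x => v x * f x / u x) (fun y => v' y * g y / u' y)
  have e : ∀ x y, u x * u' y * (v x * f x / u x * k x y * (v' y * g y / u' y))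
      = v x * v' y * (f x * k x y * g y) := by
    intro x y
    by_cases hx : u x = 0
    · have : v x = 0 := le_antisymm (by simpa [hx] using d x) (hv x)
      simp [hx, this]
    by_cases hy : u' y = 0
    · have : v' y = 0 := le_antisymm (by simpa [hy] using d' y) (hv' y)
      simp [hy, this]
    field_simp
  simp only [e] at h1
  refine h1.trans ?_
  have a1 := nm_div hu hv hD d f
  have a2 := nm_div hu' hv' hD d' g
  have hs : √D * √D = D := Real.mul_self_sqrt hD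
  calc ρ * nm u (fun x => v x * f x / u x) * nm u' (fun y => v' y * g y / u' y)
      ≤ ρ * (√D * nm v f) * (√D * nm v' g) := by
        apply mul_le_mul (mul_le_mul_of_nonneg_left a1 hρ) a2 (nm_nonneg _ _)
        exact mul_nonneg hρ (mul_nonneg (Real.sqrt_nonneg _) (nm_nonneg _ _))
    _ = ρ * (√D * √D) * nm v f * nm v' g := by ring
    _ = ρ * D * nm v f * nm v' g := by rw [hs]

theorem OpB.swap {w : X → ℝ} {w' : Y → ℝ} {k : X → Y → ℝ} {ρ : ℝ} (h : OpB w w' k ρ) :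
    OpB w' w (fun y x => k x y) ρ := by
  intro f g
  have := h g f
  rw [Finset.sum_comm] at this
  have e : ∀ y x, w x * w' y * (g x * k x y * f y) = w' y * w x * (f y * k x y * g x) :=
    fun y x => by ring
  simp only [e] at this
  linarith [mul_right_comm ρ (nm w g) (nm w' f)]

/-- norm of the image: `‖∑_y w' y k x y g y‖ ≤ ρ ‖g‖`. -/
theorem OpB.apply {w : X → ℝ} {w' : Y → ℝ} {k : X → Y → ℝ} {ρ : ℝ} (h : OpB w w' k ρ)
    (hw : ∀ x, 0 ≤ w x) (hρ : 0 ≤ ρ) (g : Y → ℝ) :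
    nm w (fun x => ∑ y, w' y * (k x y * g y)) ≤ ρ * nm w' g := by
  set a : X → ℝ := fun x => ∑ y, w' y * (k x y * g y) with ha
  have h1 := h a g
  have e : ∑ x, ∑ y, w x * w' y * (a x * k x y * g y) = ∑ x, w x * a x ^ 2 := by
    apply Finset.sum_congr rfl
    intro x _
    have : ∀ y, w x * w' y * (a x * k x y * g y) = w x * a x * (w' y * (k x y * g y)) :=
      fun y => by ring
    simp only [this]
    rw [← Finset.mul_sum]
    show w x * a x * a x = _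
    ring
  rw [e, ← nm_sq hw, abs_of_nonneg (sq_nonneg _)] at h1
  by_contra hc
  push Not at hc
  have hpos : 0 < nm w a := lt_of_le_of_lt (mul_nonneg hρ (nm_nonneg _ _)) hc
  have : ρ * nm w a * nm w' g < nm w a ^ 2 := by
    have := mul_lt_mul_of_pos_right hc hpos
    nlinarith
  linarith

/-- the form used downstream (365/159): `∑ a, w a (∑ b, w' b (k a b u b))² ≤ ρ² ∑ b, w' b u b²`. -/
theorem OpB.sq {w : X → ℝ} {w' : Y → ℝ} {k : X → Y → ℝ} {ρ : ℝ} (h : OpB w w' k ρ)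
    (hw : ∀ x, 0 ≤ w x) (hw' : ∀ y, 0 ≤ w' y) (hρ : 0 ≤ ρ) (g : Y → ℝ) :
    ∑ x, w x * (∑ y, w' y * (k x y * g y)) ^ 2 ≤ ρ ^ 2 * ∑ y, w' y * g y ^ 2 := by
  have h1 := h.apply hw hρ g
  rw [← nm_sq hw, ← nm_sq hw', ← mul_pow]
  exact pow_le_pow_left₀ (nm_nonneg _ _) h1 2

/-- hypotheses of the one-body step for one prime -/
structure KD (u : X → ℝ) (u' : Y → ℝ) (ν : X → ℝ) (ν' : Y → ℝ) (k : X → Y → ℝ)
    (ρ D r H : ℝ) : Prop where
  hu : ∀ x, 0 ≤ u x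
  hu' : ∀ y, 0 ≤ u' y
  hν : ∀ x, 0 ≤ ν x
  hν' : ∀ y, 0 ≤ ν' y
  su : ∑ x, u x = 1
  su' : ∑ y, u' y = 1
  sν : ∑ x, ν x = 1
  sν' : ∑ y, ν' y = 1
  dν : ∀ x, ν x ≤ D * u x
  dν' : ∀ y, ν' y ≤ D * u' y
  ck : ∀ x, ∑ y, u' y * k x y = 0
  ck' : ∀ y, ∑ x, u x * k x y = 0
  op : OpB u u' k ρ
  hH : nm u (fun x => ν x / u x - 1) ≤ H
  hH' : nm u' (fun y => ν' y / u' y - 1) ≤ H
  row : ∀ x, ν x ≠ 0 → r ≤ ∑ y, ν' y * (1 + k x y)
  row' : ∀ y, ν' y ≠ 0 → r ≤ ∑ x, ν x * (1 + k x y)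
  r0 : 0 < r
  r1 : r ≤ 1
  D1 : 1 ≤ D
  ρ0 : 0 ≤ ρ
  ρ1 : ρ ≤ 1
  H0 : 0 ≤ H
  small : 8 * ρ * H ^ 2 * D ^ 2 ≤ r ^ 2

/-- row function minus one: `a x = ∑_y ν' y k x y`. -/
def ra (ν' : Y → ℝ) (k : X → Y → ℝ) (x : X) : ℝ := ∑ y, ν' y * k x y

open Classical in
/-- the one-body factor `1 / A` on the support of `ν`, `1` outside -/
noncomputable def ph (ν : X → ℝ) (ν' : Y → ℝ) (k : X → Y → ℝ) (x : X) : ℝ :=
  if ν x = 0 then 1 else (1 + ra ν' k x)⁻¹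

namespace KD

variable {u : X → ℝ} {u' : Y → ℝ} {ν : X → ℝ} {ν' : Y → ℝ} {k : X → Y → ℝ} {ρ D r H : ℝ}

theorem swap (d : KD u u' ν ν' k ρ D r H) : KD u' u ν' ν (fun y x => k x y) ρ D r H where
  hu := d.hu'
  hu' := d.hu
  hν := d.hν'
  hν' := d.hν
  su := d.su'
  su' := d.su
  sν := d.sν'
  sν' := d.sν
  dν := d.dν'
  dν' := d.dν
  ck := d.ck'
  ck' := d.ck
  op := d.op.swap
  hH := d.hH'
  hH' := d.hH
  row := d.row'
  row' := d.row
  r0 := d.r0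
  r1 := d.r1
  D1 := d.D1
  ρ0 := d.ρ0
  ρ1 := d.ρ1
  H0 := d.H0
  small := d.small

theorem D0 (d : KD u u' ν ν' k ρ D r H) : 0 ≤ D := le_trans zero_le_one d.D1

theorem sqD_sq (d : KD u u' ν ν' k ρ D r H) : √D * √D = D := Real.mul_self_sqrt d.D0

theorem sqD_le (d : KD u u' ν ν' k ρ D r H) : √D ≤ D := by
  rw [Real.sqrt_le_left d.D0]
  nlinarith [d.D1]

theorem sqD_nonneg (D : ℝ) : 0 ≤ √D := Real.sqrt_nonneg _

theorem A_eq (d : KD u u' ν ν' k ρ D r H) (x : X) :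
    ∑ y, ν' y * (1 + k x y) = 1 + ra ν' k x := by
  unfold ra
  simp only [mul_add, mul_one, Finset.sum_add_distrib, d.sν']

theorem row_ra (d : KD u u' ν ν' k ρ D r H) {x : X} (hx : ν x ≠ 0) : r ≤ 1 + ra ν' k x := by
  rw [← d.A_eq]; exact d.row x hx

theorem ra_eq (d : KD u u' ν ν' k ρ D r H) (x : X) :
    ra ν' k x = ∑ y, u' y * (k x y * (ν' y / u' y - 1)) := by
  have h : ∀ y, u' y * (k x y * (ν' y / u' y - 1)) = ν' y * k x y - u' y * k x y := by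
    intro y
    by_cases hy : u' y = 0
    · have : ν' y = 0 := le_antisymm (by simpa [hy] using d.dν' y) (d.hν' y)
      simp [hy, this]
    · field_simp
  simp only [h, Finset.sum_sub_distrib, d.ck, sub_zero]
  rfl

theorem nm_ra (d : KD u u' ν ν' k ρ D r H) : nm u (ra ν' k) ≤ ρ * H := by
  have h1 := d.op.apply d.hu d.ρ0 (fun y => ν' y / u' y - 1)
  have h2 : (fun x => ∑ y, u' y * (k x y * (ν' y / u' y - 1))) = ra ν' k :=
    funext fun x => (d.ra_eq x).symm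
  rw [h2] at h1
  exact h1.trans (mul_le_mul_of_nonneg_left d.hH' d.ρ0)

theorem nm_ra_ν (d : KD u u' ν ν' k ρ D r H) : nm ν (ra ν' k) ≤ √D * (ρ * H) :=
  (nm_weight d.hu d.D0 d.dν _).trans
    (mul_le_mul_of_nonneg_left d.nm_ra (Real.sqrt_nonneg _))

theorem ph_pos (d : KD u u' ν ν' k ρ D r H) (x : X) : 0 < ph ν ν' k x := by
  unfold ph
  split_ifs with h
  · exact one_pos
  · exact inv_pos.mpr (lt_of_lt_of_le d.r0 (d.row_ra h))

theorem inv_r (d : KD u u' ν ν' k ρ D r H) : 1 ≤ r⁻¹ := (one_le_inv₀ d.r0).mpr d.r1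

theorem ph_le (d : KD u u' ν ν' k ρ D r H) (x : X) : ph ν ν' k x ≤ r⁻¹ := by
  unfold ph
  split_ifs with h
  · exact d.inv_r
  · exact inv_anti₀ d.r0 (d.row_ra h)

theorem abs_ph_le (d : KD u u' ν ν' k ρ D r H) (x : X) : |ph ν ν' k x| ≤ r⁻¹ := by
  rw [abs_of_pos (d.ph_pos x)]; exact d.ph_le x

theorem ph_mul (d : KD u u' ν ν' k ρ D r H) {x : X} (hx : ν x ≠ 0) :
    ph ν ν' k x * (1 + ra ν' k x) = 1 := by
  unfold ph
  rw [if_neg hx]
  exact inv_mul_cancel₀ (ne_of_gt (lt_of_lt_of_le d.r0 (d.row_ra hx)))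

theorem ph_sub_one (d : KD u u' ν ν' k ρ D r H) (x : X) :
    |ph ν ν' k x - 1| ≤ |r⁻¹ * ra ν' k x| := by
  by_cases hx : ν x = 0
  · have : ph ν ν' k x - 1 = 0 := by simp [ph, hx]
    rw [this, abs_zero]
    exact abs_nonneg _
  · have h1 := d.ph_mul hx
    have h2 : ph ν ν' k x - 1 = - (ph ν ν' k x * ra ν' k x) := by linarith
    rw [h2, abs_neg, abs_mul, abs_mul, abs_of_pos (inv_pos.mpr d.r0)]
    exact mul_le_mul_of_nonneg_right (d.abs_ph_le x) (abs_nonneg _)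

theorem nm_ph_u (d : KD u u' ν ν' k ρ D r H) :
    nm u (fun x => ph ν ν' k x - 1) ≤ r⁻¹ * (ρ * H) := by
  calc nm u (fun x => ph ν ν' k x - 1) ≤ nm u (fun x => r⁻¹ * ra ν' k x) :=
        nm_le_of_abs d.hu fun x _ => d.ph_sub_one x
    _ = r⁻¹ * nm u (ra ν' k) := by rw [nm_smul, abs_of_pos (inv_pos.mpr d.r0)]
    _ ≤ _ := mul_le_mul_of_nonneg_left d.nm_ra (inv_pos.mpr d.r0).le

theorem nm_ph_ν (d : KD u u' ν ν' k ρ D r H) :
    nm ν (fun x => ph ν ν' k x - 1) ≤ r⁻¹ * (√D * (ρ * H)) := by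
  calc nm ν (fun x => ph ν ν' k x - 1) ≤ nm ν (fun x => r⁻¹ * ra ν' k x) :=
        nm_le_of_abs d.hν fun x _ => d.ph_sub_one x
    _ = r⁻¹ * nm ν (ra ν' k) := by rw [nm_smul, abs_of_pos (inv_pos.mpr d.r0)]
    _ ≤ _ := mul_le_mul_of_nonneg_left d.nm_ra_ν (inv_pos.mpr d.r0).le

theorem opν (d : KD u u' ν ν' k ρ D r H) : OpB ν ν' k (ρ * D) :=
  d.op.change d.hu d.hu' d.hν d.hν' d.D0 d.ρ0 d.dν d.dν'

/-- the mean of `ra`: `|∑∑ ν ν' k| ≤ ρ H²`. -/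
theorem mean_ra (d : KD u u' ν ν' k ρ D r H) : |∑ x, ν x * ra ν' k x| ≤ ρ * H ^ 2 := by
  have h1 : ∑ x, ν x * ra ν' k x = ∑ x, u x * ((ν x / u x - 1) * ra ν' k x) := by
    have e : ∀ x, u x * ((ν x / u x - 1) * ra ν' k x) = ν x * ra ν' k x - u x * ra ν' k x := by
      intro x
      by_cases hx : u x = 0
      · have : ν x = 0 := le_antisymm (by simpa [hx] using d.dν x) (d.hν x)
        simp [hx, this]
      · field_simp
    simp only [e, Finset.sum_sub_distrib]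
    have : ∑ x, u x * ra ν' k x = 0 := by
      unfold ra
      simp only [Finset.mul_sum]
      rw [Finset.sum_comm]
      apply Finset.sum_eq_zero
      intro y _
      have := d.ck' y
      calc ∑ x, u x * (ν' y * k x y) = ν' y * ∑ x, u x * k x y := by
            rw [Finset.mul_sum]; exact Finset.sum_congr rfl fun x _ => by ring
        _ = 0 := by rw [this, mul_zero]
    rw [this, sub_zero]
  rw [h1]
  calc |∑ x, u x * ((ν x / u x - 1) * ra ν' k x)|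
      ≤ nm u (fun x => ν x / u x - 1) * nm u (ra ν' k) := cs d.hu _ _
    _ ≤ H * (ρ * H) := mul_le_mul d.hH d.nm_ra (nm_nonneg _ _) d.H0
    _ = ρ * H ^ 2 := by ring

/-- `s = ∑ ν (φ - 1)`. -/
theorem mean_ph (d : KD u u' ν ν' k ρ D r H) :
    |∑ x, ν x * (ph ν ν' k x - 1)| ≤ 2 * ρ * H ^ 2 * D * r⁻¹ := by
  have e : ∀ x, ν x * (ph ν ν' k x - 1)
      = - (ν x * ra ν' k x) + ν x * (ph ν ν' k x * ra ν' k x ^ 2) := by
    intro x
    by_cases hx : ν x = 0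
    · simp [hx]
    · have h1 := d.ph_mul hx
      linear_combination (ν x * (1 - ra ν' k x)) * h1
  simp only [e, Finset.sum_add_distrib, Finset.sum_neg_distrib]
  have h2 : |∑ x, ν x * (ph ν ν' k x * ra ν' k x ^ 2)| ≤ r⁻¹ * nm ν (ra ν' k) ^ 2 := by
    rw [nm_sq d.hν, Finset.mul_sum]
    refine (Finset.abs_sum_le_sum_abs _ _).trans (Finset.sum_le_sum fun x _ => ?_)
    rw [abs_mul, abs_mul, abs_of_nonneg (d.hν x), abs_of_nonneg (sq_nonneg (ra ν' k x))]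
    have := mul_le_mul_of_nonneg_right (d.abs_ph_le x)
      (mul_nonneg (d.hν x) (sq_nonneg (ra ν' k x)))
    linarith [this, mul_left_comm (ν x) |ph ν ν' k x| (ra ν' k x ^ 2),
      mul_assoc r⁻¹ (ν x) (ra ν' k x ^ 2)]
  have h3 : nm ν (ra ν' k) ^ 2 ≤ D * (ρ * H) ^ 2 := by
    have := pow_le_pow_left₀ (nm_nonneg _ _) d.nm_ra_ν 2
    calc _ ≤ _ := this
      _ = (√D * √D) * (ρ * H) ^ 2 := by ring
      _ = _ := by rw [d.sqD_sq]
  have h4 := d.mean_ra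
  have hr := d.inv_r
  have hD := d.D1
  have h5 : r⁻¹ * nm ν (ra ν' k) ^ 2 ≤ r⁻¹ * (D * (ρ * H) ^ 2) :=
    mul_le_mul_of_nonneg_left h3 (le_trans zero_le_one hr)
  have h6 : r⁻¹ * (D * (ρ * H) ^ 2) ≤ r⁻¹ * D * (ρ * H ^ 2) := by
    have : ρ ^ 2 * H ^ 2 ≤ ρ * H ^ 2 :=
      mul_le_mul_of_nonneg_right (by nlinarith [d.ρ0, d.ρ1]) (sq_nonneg H)
    calc r⁻¹ * (D * (ρ * H) ^ 2) = (r⁻¹ * D) * (ρ ^ 2 * H ^ 2) := by ring
      _ ≤ (r⁻¹ * D) * (ρ * H ^ 2) :=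
        mul_le_mul_of_nonneg_left this (mul_nonneg (le_trans zero_le_one hr) d.D0)
  have h7 : ρ * H ^ 2 ≤ r⁻¹ * D * (ρ * H ^ 2) := by
    have h8 : 1 ≤ r⁻¹ * D := by nlinarith
    nlinarith [mul_nonneg d.ρ0 (sq_nonneg H)]
  calc |-∑ x, ν x * ra ν' k x + ∑ x, ν x * (ph ν ν' k x * ra ν' k x ^ 2)|
      ≤ |∑ x, ν x * ra ν' k x| + |∑ x, ν x * (ph ν ν' k x * ra ν' k x ^ 2)| := by
        refine (abs_add_le _ _).trans ?_
        rw [abs_neg]
    _ ≤ ρ * H ^ 2 + r⁻¹ * (D * (ρ * H) ^ 2) := add_le_add h4 (h2.trans h5)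
    _ ≤ 2 * ρ * H ^ 2 * D * r⁻¹ := by nlinarith

/-- the normalising mean -/
noncomputable def EL (ν : X → ℝ) (ν' : Y → ℝ) (k : X → Y → ℝ) : ℝ :=
  ∑ x, ∑ y, ν x * ν' y * (ph ν ν' k x * (1 + k x y) * ph ν' ν (fun y x => k x y) y)

theorem EL_eq (d : KD u u' ν ν' k ρ D r H) :
    EL ν ν' k = 1 + (∑ x, ν x * ph ν ν' k x)
        * (∑ y, ν' y * (ph ν' ν (fun y x => k x y) y - 1))
      + (∑ y, ν' y * (ra ν (fun y x => k x y) y * (ph ν' ν (fun y x => k x y) y - 1)))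
      + ∑ x, ∑ y, ν x * ν' y
        * ((ph ν ν' k x - 1) * k x y * (ph ν' ν (fun y x => k x y) y - 1)) := by
  set φ := ph ν ν' k with hφ
  set ψ := ph ν' ν (fun y x => k x y) with hψ
  have h1 : ∑ x, ν x * (φ x * (1 + ra ν' k x)) = 1 := by
    refine Eq.trans (Finset.sum_congr rfl fun x _ => ?_) d.sν
    by_cases hx : ν x = 0
    · simp [hx]
    · rw [d.ph_mul hx, mul_one]
  have h2 : ∀ x, ∑ y, ν x * ν' y * (φ x * (1 + k x y) * ψ y)
      = ν x * (φ x * (1 + ra ν' k x)) + ν x * φ x * (∑ y, ν' y * (ψ y - 1))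
        + (∑ y, ν x * ν' y * (k x y * (ψ y - 1)))
        + ∑ y, ν x * ν' y * ((φ x - 1) * k x y * (ψ y - 1)) := by
    intro x
    have e : ν x * (φ x * (1 + ra ν' k x)) = ∑ y, ν x * ν' y * (φ x * (1 + k x y)) := by
      rw [← d.A_eq, Finset.mul_sum, Finset.mul_sum]
      exact Finset.sum_congr rfl fun y _ => by ring
    rw [e, Finset.mul_sum, ← Finset.sum_add_distrib, ← Finset.sum_add_distrib,
      ← Finset.sum_add_distrib]
    exact Finset.sum_congr rfl fun y _ => by ring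
  have h3 : ∑ x, ∑ y, ν x * ν' y * (k x y * (ψ y - 1))
      = ∑ y, ν' y * (ra ν (fun y x => k x y) y * (ψ y - 1)) := by
    rw [Finset.sum_comm]
    apply Finset.sum_congr rfl
    intro y _
    unfold ra
    rw [Finset.sum_mul, Finset.mul_sum]
    exact Finset.sum_congr rfl fun x _ => by ring
  unfold EL
  simp only [← hφ, ← hψ, h2, Finset.sum_add_distrib, h1, h3]
  rw [← Finset.sum_mul]

/-- `|EL - 1| ≤ 4 ρ H² D² / r²`. -/
theorem EL_sub (d : KD u u' ν ν' k ρ D r H) :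
    |EL ν ν' k - 1| ≤ 4 * ρ * H ^ 2 * D ^ 2 * r⁻¹ ^ 2 := by
  have d' := d.swap
  rw [d.EL_eq]
  set φ := ph ν ν' k with hφ
  set ψ := ph ν' ν (fun y x => k x y) with hψ
  have hr := d.inv_r
  have hD := d.D1
  have hρ := d.ρ0
  have hr0 : (0:ℝ) ≤ r⁻¹ := le_trans zero_le_one hr
  have a1 : |∑ x, ν x * φ x| ≤ r⁻¹ := by
    calc |∑ x, ν x * φ x| ≤ ∑ x, ν x * r⁻¹ := by
          refine (Finset.abs_sum_le_sum_abs _ _).trans (Finset.sum_le_sum fun x _ => ?_)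
          rw [abs_mul, abs_of_nonneg (d.hν x)]
          exact mul_le_mul_of_nonneg_left (d.abs_ph_le x) (d.hν x)
      _ = r⁻¹ := by rw [← Finset.sum_mul, d.sν, one_mul]
  have a2 : |∑ y, ν' y * (ψ y - 1)| ≤ 2 * ρ * H ^ 2 * D * r⁻¹ := d'.mean_ph
  have hsD : √D * √D = D := d.sqD_sq
  have hs0 : 0 ≤ √D := Real.sqrt_nonneg _
  have hH := d.H0
  have a3 : |∑ y, ν' y * (ra ν (fun y x => k x y) y * (ψ y - 1))| ≤ D * ρ ^ 2 * H ^ 2 * r⁻¹ := by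
    refine (cs d.hν' _ _).trans ?_
    calc nm ν' (ra ν fun y x => k x y) * nm ν' (fun y => ψ y - 1)
        ≤ (√D * (ρ * H)) * (r⁻¹ * (√D * (ρ * H))) :=
          mul_le_mul d'.nm_ra_ν d'.nm_ph_ν (nm_nonneg _ _)
            (mul_nonneg hs0 (mul_nonneg hρ hH))
      _ = (√D * √D) * ρ ^ 2 * H ^ 2 * r⁻¹ := by ring
      _ = _ := by rw [hsD]
  have a4 : |∑ x, ∑ y, ν x * ν' y * ((φ x - 1) * k x y * (ψ y - 1))|
      ≤ D ^ 2 * ρ ^ 3 * H ^ 2 * r⁻¹ ^ 2 := by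
    refine (d.opν (fun x => φ x - 1) (fun y => ψ y - 1)).trans ?_
    calc ρ * D * nm ν (fun x => φ x - 1) * nm ν' (fun y => ψ y - 1)
        ≤ ρ * D * (r⁻¹ * (√D * (ρ * H))) * (r⁻¹ * (√D * (ρ * H))) := by
          apply mul_le_mul (mul_le_mul_of_nonneg_left d.nm_ph_ν (mul_nonneg hρ d.D0)) d'.nm_ph_ν
            (nm_nonneg _ _)
          exact mul_nonneg (mul_nonneg hρ d.D0)
            (mul_nonneg hr0 (mul_nonneg hs0 (mul_nonneg hρ hH)))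
      _ = ρ * D * (√D * √D) * ρ ^ 2 * H ^ 2 * r⁻¹ ^ 2 := by ring
      _ = _ := by rw [hsD]; ring
  have e : ∀ a b c : ℝ, 1 + a + b + c - 1 = a + b + c := fun a b c => by ring
  rw [e]
  have b1 : |(∑ x, ν x * φ x) * ∑ y, ν' y * (ψ y - 1)| ≤ 2 * (ρ * H ^ 2 * D * r⁻¹ ^ 2) := by
    rw [abs_mul]
    calc _ ≤ r⁻¹ * (2 * ρ * H ^ 2 * D * r⁻¹) :=
          mul_le_mul a1 a2 (abs_nonneg _) hr0
      _ = _ := by ring
  have w0 : 0 ≤ ρ * H ^ 2 := mul_nonneg hρ (sq_nonneg _)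
  have rr : r⁻¹ ≤ r⁻¹ ^ 2 := by nlinarith
  have DD : D ≤ D ^ 2 := by nlinarith
  have D2r : D * r⁻¹ ^ 2 ≤ D ^ 2 * r⁻¹ ^ 2 := mul_le_mul_of_nonneg_right DD (sq_nonneg _)
  have Dr : D * r⁻¹ ≤ D ^ 2 * r⁻¹ ^ 2 := mul_le_mul DD rr hr0 (sq_nonneg _)
  have c1 : ρ * H ^ 2 * D * r⁻¹ ^ 2 ≤ ρ * H ^ 2 * (D ^ 2 * r⁻¹ ^ 2) := by
    rw [mul_assoc (ρ * H ^ 2)]; exact mul_le_mul_of_nonneg_left D2r w0
  have ρ2 : ρ ^ 2 * H ^ 2 ≤ ρ * H ^ 2 :=
    mul_le_mul_of_nonneg_right (by nlinarith [d.ρ1]) (sq_nonneg H)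
  have ρ3 : ρ ^ 3 * H ^ 2 ≤ ρ * H ^ 2 := by
    apply mul_le_mul_of_nonneg_right _ (sq_nonneg H)
    have h1 := d.ρ1
    nlinarith [mul_nonneg hρ hρ, mul_nonneg (mul_nonneg hρ hρ) hρ]
  have c2 : D * ρ ^ 2 * H ^ 2 * r⁻¹ ≤ ρ * H ^ 2 * (D ^ 2 * r⁻¹ ^ 2) := by
    calc D * ρ ^ 2 * H ^ 2 * r⁻¹ = (ρ ^ 2 * H ^ 2) * (D * r⁻¹) := by ring
      _ ≤ (ρ * H ^ 2) * (D ^ 2 * r⁻¹ ^ 2) := mul_le_mul ρ2 Dr (mul_nonneg d.D0 hr0) w0
  have c3 : D ^ 2 * ρ ^ 3 * H ^ 2 * r⁻¹ ^ 2 ≤ ρ * H ^ 2 * (D ^ 2 * r⁻¹ ^ 2) := by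
    calc D ^ 2 * ρ ^ 3 * H ^ 2 * r⁻¹ ^ 2 = (ρ ^ 3 * H ^ 2) * (D ^ 2 * r⁻¹ ^ 2) := by ring
      _ ≤ _ := mul_le_mul_of_nonneg_right ρ3 (mul_nonneg (sq_nonneg _) (sq_nonneg _))
  refine (abs_add_le _ _).trans ?_
  have := abs_add_le ((∑ x, ν x * φ x) * ∑ y, ν' y * (ψ y - 1))
    (∑ y, ν' y * (ra ν (fun y x => k x y) y * (ψ y - 1)))
  linarith

theorem small' (d : KD u u' ν ν' k ρ D r H) : 4 * ρ * H ^ 2 * D ^ 2 * r⁻¹ ^ 2 ≤ 1 / 2 := by
  have h := d.small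
  have hr : 0 < r ^ 2 := pow_pos d.r0 2
  rw [inv_pow, ← div_eq_mul_inv, div_le_iff₀ hr]
  linarith

theorem EL_pos (d : KD u u' ν ν' k ρ D r H) : 1 / 2 ≤ EL ν ν' k := by
  have := (abs_le.mp (d.EL_sub.trans d.small')).1
  linarith

/-- the normalising constant -/
noncomputable def lam (ν : X → ℝ) (ν' : Y → ℝ) (k : X → Y → ℝ) : ℝ := (EL ν ν' k)⁻¹

theorem lam_pos (d : KD u u' ν ν' k ρ D r H) : 0 < lam ν ν' k :=
  inv_pos.mpr (lt_of_lt_of_le (by norm_num) d.EL_pos)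

theorem lam_le (d : KD u u' ν ν' k ρ D r H) : lam ν ν' k ≤ 2 := by
  have := inv_anti₀ (by norm_num) d.EL_pos
  unfold lam
  calc (EL ν ν' k)⁻¹ ≤ (1 / 2 : ℝ)⁻¹ := this
    _ = 2 := by norm_num

theorem lam_mul (d : KD u u' ν ν' k ρ D r H) : lam ν ν' k * EL ν ν' k = 1 :=
  inv_mul_cancel₀ (ne_of_gt (lt_of_lt_of_le (by norm_num) d.EL_pos))

theorem lam_sub (d : KD u u' ν ν' k ρ D r H) :
    |lam ν ν' k - 1| ≤ 8 * ρ * H ^ 2 * D ^ 2 * r⁻¹ ^ 2 := by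
  have h1 : lam ν ν' k - 1 = - (lam ν ν' k * (EL ν ν' k - 1)) := by
    have := d.lam_mul; linarith
  rw [h1, abs_neg, abs_mul, abs_of_pos d.lam_pos]
  have := mul_le_mul d.lam_le d.EL_sub (abs_nonneg _) (by norm_num : (0:ℝ) ≤ 2)
  linarith

/-- the doubly centred kernel -/
noncomputable def KK (ν : X → ℝ) (ν' : Y → ℝ) (k : X → Y → ℝ) (x : X) (y : Y) : ℝ :=
  lam ν ν' k * (ph ν ν' k x * (1 + k x y) * ph ν' ν (fun y x => k x y) y) - 1

theorem KK_mean (d : KD u u' ν ν' k ρ D r H) : ∑ x, ∑ y, ν x * ν' y * KK ν ν' k x y = 0 := by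
  unfold KK
  have e : ∀ x y, ν x * ν' y * (lam ν ν' k * (ph ν ν' k x * (1 + k x y)
      * ph ν' ν (fun y x => k x y) y) - 1)
      = lam ν ν' k * (ν x * ν' y * (ph ν ν' k x * (1 + k x y)
      * ph ν' ν (fun y x => k x y) y)) - ν x * ν' y := fun x y => by ring
  simp only [e, Finset.sum_sub_distrib, ← Finset.mul_sum]
  rw [d.sν', show (∑ x, ν x * 1) = 1 by simp [d.sν]]
  have := d.lam_mul
  unfold EL at this
  linarith

theorem nm_ph (d : KD u u' ν ν' k ρ D r H) : nm ν (ph ν ν' k) ≤ r⁻¹ :=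
  nm_le_of_bd d.hν d.sν (le_trans zero_le_one d.inv_r) fun x _ => d.abs_ph_le x

theorem nm_mul_ph (d : KD u u' ν ν' k ρ D r H) (f : X → ℝ) :
    nm ν (fun x => f x * ph ν ν' k x) ≤ r⁻¹ * nm ν f := by
  calc nm ν (fun x => f x * ph ν ν' k x) ≤ nm ν (fun x => r⁻¹ * f x) := by
        apply nm_le_of_abs d.hν
        intro x _
        rw [abs_mul, abs_mul, abs_of_pos (inv_pos.mpr d.r0), mul_comm]
        exact mul_le_mul_of_nonneg_right (d.abs_ph_le x) (abs_nonneg _)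
    _ = r⁻¹ * nm ν f := by rw [nm_smul, abs_of_pos (inv_pos.mpr d.r0)]

theorem abs_mean_le {w : X → ℝ} (hw : ∀ x, 0 ≤ w x) (hs : ∑ x, w x = 1) (f : X → ℝ) :
    |∑ x, w x * f x| ≤ nm w f := by
  have := cs hw f (fun _ => 1)
  simp only [mul_one] at this
  rwa [nm_const hs, abs_one, mul_one] at this

theorem KK_point (l p q kk a b v w : ℝ) :
    v * w * (a * (l * (p * (1 + kk) * q) - 1) * b)
      = l * (v * w * (a * p * kk * (b * q))) + l * ((v * (a * (p - 1))) * (w * (q * b)))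
        + l * ((v * a) * (w * ((q - 1) * b))) + (l - 1) * ((v * a) * (w * b)) := by ring

theorem KK_expand (f : X → ℝ) (g : Y → ℝ) :
    ∑ x, ∑ y, ν x * ν' y * (f x * KK ν ν' k x y * g y)
      = lam ν ν' k * (∑ x, ∑ y, ν x * ν' y
          * (f x * ph ν ν' k x * k x y * (g y * ph ν' ν (fun y x => k x y) y)))
        + lam ν ν' k * ((∑ x, ν x * (f x * (ph ν ν' k x - 1)))
          * (∑ y, ν' y * (ph ν' ν (fun y x => k x y) y * g y)))
        + lam ν ν' k * ((∑ x, ν x * f x)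
          * (∑ y, ν' y * ((ph ν' ν (fun y x => k x y) y - 1) * g y)))
        + (lam ν ν' k - 1) * ((∑ x, ν x * f x) * (∑ y, ν' y * g y)) := by
  rw [Finset.sum_mul_sum, Finset.sum_mul_sum, Finset.sum_mul_sum]
  simp only [Finset.mul_sum, ← Finset.sum_add_distrib]
  apply Finset.sum_congr rfl
  intro x _
  apply Finset.sum_congr rfl
  intro y _
  exact KK_point _ _ _ _ _ _ _ _

theorem tot_aux {ρ D H R δ : ℝ} (hρ : 0 ≤ ρ) (hD : 1 ≤ D) (hH : 0 ≤ H) (hR : 1 ≤ R)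
    (hδ' : δ ≤ ρ * D ^ 2 * H * R) :
    2 * (ρ * D * R ^ 2) + 2 * (δ * R) + 2 * δ + 8 * ρ * H ^ 2 * D ^ 2 * R ^ 2
      ≤ 8 * ρ * D ^ 2 * (1 + H) ^ 2 * R ^ 2 := by
  have hR0 : 0 ≤ R := le_trans zero_le_one hR
  have rr : R ≤ R ^ 2 := by nlinarith
  have w0 : 0 ≤ ρ * D ^ 2 := mul_nonneg hρ (sq_nonneg _)
  have q1 : ρ * D * R ^ 2 ≤ ρ * D ^ 2 * R ^ 2 := by
    apply mul_le_mul_of_nonneg_right _ (sq_nonneg _)
    apply mul_le_mul_of_nonneg_left _ hρ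
    nlinarith
  have q2 : δ * R ≤ ρ * D ^ 2 * H * R ^ 2 := by
    calc δ * R ≤ (ρ * D ^ 2 * H * R) * R := mul_le_mul_of_nonneg_right hδ' hR0
      _ = _ := by ring
  have q3 : δ ≤ ρ * D ^ 2 * H * R ^ 2 :=
    hδ'.trans (mul_le_mul_of_nonneg_left rr (mul_nonneg w0 hH))
  have w1 : 0 ≤ ρ * D ^ 2 * R ^ 2 := mul_nonneg w0 (sq_nonneg _)
  have w2 : 0 ≤ ρ * D ^ 2 * H * R ^ 2 := mul_nonneg (mul_nonneg w0 hH) (sq_nonneg _)
  have e : 8 * ρ * D ^ 2 * (1 + H) ^ 2 * R ^ 2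
      = 8 * (ρ * D ^ 2 * R ^ 2) + 16 * (ρ * D ^ 2 * H * R ^ 2)
        + 8 * ρ * H ^ 2 * D ^ 2 * R ^ 2 := by ring
  rw [e]
  linarith

theorem KK_op (d : KD u u' ν ν' k ρ D r H) :
    OpB ν ν' (KK ν ν' k) (8 * ρ * D ^ 2 * (1 + H) ^ 2 * r⁻¹ ^ 2) := by
  intro f g
  have d' := d.swap
  have hr := d.inv_r
  have hr0 : (0:ℝ) ≤ r⁻¹ := le_trans zero_le_one hr
  have hD := d.D1
  have hρ := d.ρ0
  have hH := d.H0
  have hs0 : 0 ≤ √D := Real.sqrt_nonneg _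
  rw [KK_expand f g]
  have F0 : 0 ≤ nm ν f := nm_nonneg _ _
  have G0 : 0 ≤ nm ν' g := nm_nonneg _ _
  have FG : 0 ≤ nm ν f * nm ν' g := mul_nonneg F0 G0
  have l0 : 0 < lam ν ν' k := d.lam_pos
  have l2 : lam ν ν' k ≤ 2 := d.lam_le
  have δ0 : 0 ≤ r⁻¹ * (√D * (ρ * H)) := mul_nonneg hr0 (mul_nonneg hs0 (mul_nonneg hρ hH))
  have t1 : |∑ x, ∑ y, ν x * ν' y
          * (f x * ph ν ν' k x * k x y * (g y * ph ν' ν (fun y x => k x y) y))|
      ≤ ρ * D * r⁻¹ ^ 2 * (nm ν f * nm ν' g) := by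
    refine (d.opν (fun x => f x * ph ν ν' k x)
      (fun y => g y * ph ν' ν (fun y x => k x y) y)).trans ?_
    calc _ ≤ ρ * D * (r⁻¹ * nm ν f) * (r⁻¹ * nm ν' g) := by
          apply mul_le_mul (mul_le_mul_of_nonneg_left (d.nm_mul_ph f) (mul_nonneg hρ d.D0))
            (d'.nm_mul_ph g) (nm_nonneg _ _)
          exact mul_nonneg (mul_nonneg hρ d.D0) (mul_nonneg hr0 F0)
      _ = _ := by ring
  have t2 : |(∑ x, ν x * (f x * (ph ν ν' k x - 1)))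
          * (∑ y, ν' y * (ph ν' ν (fun y x => k x y) y * g y))|
      ≤ r⁻¹ * (√D * (ρ * H)) * r⁻¹ * (nm ν f * nm ν' g) := by
    rw [abs_mul]
    have a := (cs d.hν f (fun x => ph ν ν' k x - 1)).trans
      (mul_le_mul_of_nonneg_left d.nm_ph_ν F0)
    have b := (cs d.hν' (ph ν' ν (fun y x => k x y)) g).trans
      (mul_le_mul_of_nonneg_right d'.nm_ph G0)
    calc _ ≤ (nm ν f * (r⁻¹ * (√D * (ρ * H)))) * (r⁻¹ * nm ν' g) :=
          mul_le_mul a b (abs_nonneg _) (mul_nonneg F0 δ0)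
      _ = _ := by ring
  have t3 : |(∑ x, ν x * f x) * (∑ y, ν' y * ((ph ν' ν (fun y x => k x y) y - 1) * g y))|
      ≤ r⁻¹ * (√D * (ρ * H)) * (nm ν f * nm ν' g) := by
    rw [abs_mul]
    have a := abs_mean_le d.hν d.sν f
    have b := (cs d.hν' (fun y => ph ν' ν (fun y x => k x y) y - 1) g).trans
      (mul_le_mul_of_nonneg_right d'.nm_ph_ν G0)
    calc _ ≤ nm ν f * ((r⁻¹ * (√D * (ρ * H))) * nm ν' g) := mul_le_mul a b (abs_nonneg _) F0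
      _ = _ := by ring
  have t4 : |(∑ x, ν x * f x) * (∑ y, ν' y * g y)| ≤ nm ν f * nm ν' g := by
    rw [abs_mul]
    exact mul_le_mul (abs_mean_le d.hν d.sν f) (abs_mean_le d.hν' d.sν' g) (abs_nonneg _) F0
  have tl := d.lam_sub
  have hδ' : r⁻¹ * (√D * (ρ * H)) ≤ ρ * D ^ 2 * H * r⁻¹ := by
    have h1 : √D ≤ D ^ 2 := d.sqD_le.trans (by nlinarith)
    calc r⁻¹ * (√D * (ρ * H)) = √D * (ρ * H * r⁻¹) := by ring
      _ ≤ D ^ 2 * (ρ * H * r⁻¹) :=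
        mul_le_mul_of_nonneg_right h1 (mul_nonneg (mul_nonneg hρ hH) hr0)
      _ = _ := by ring
  have tot := tot_aux hρ hD hH hr hδ'
  refine (abs_add_le _ _).trans ?_
  refine (add_le_add (abs_add_three _ _ _) le_rfl).trans ?_
  rw [abs_mul (lam ν ν' k), abs_mul (lam ν ν' k), abs_mul (lam ν ν' k), abs_mul (lam ν ν' k - 1),
    abs_of_pos l0]
  calc _ ≤ 2 * (ρ * D * r⁻¹ ^ 2 * (nm ν f * nm ν' g))
        + 2 * (r⁻¹ * (√D * (ρ * H)) * r⁻¹ * (nm ν f * nm ν' g))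
        + 2 * (r⁻¹ * (√D * (ρ * H)) * (nm ν f * nm ν' g))
        + 8 * ρ * H ^ 2 * D ^ 2 * r⁻¹ ^ 2 * (nm ν f * nm ν' g) := by
        refine add_le_add (add_le_add (add_le_add ?_ ?_) ?_) ?_
        · exact mul_le_mul l2 t1 (abs_nonneg _) (by norm_num)
        · exact mul_le_mul l2 t2 (abs_nonneg _) (by norm_num)
        · exact mul_le_mul l2 t3 (abs_nonneg _) (by norm_num)
        · exact mul_le_mul tl t4 (abs_nonneg _) (le_trans (abs_nonneg _) tl)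
    _ = (2 * (ρ * D * r⁻¹ ^ 2) + 2 * (r⁻¹ * (√D * (ρ * H)) * r⁻¹) + 2 * (r⁻¹ * (√D * (ρ * H)))
        + 8 * ρ * H ^ 2 * D ^ 2 * r⁻¹ ^ 2) * (nm ν f * nm ν' g) := by ring
    _ ≤ 8 * ρ * D ^ 2 * (1 + H) ^ 2 * r⁻¹ ^ 2 * (nm ν f * nm ν' g) :=
        mul_le_mul_of_nonneg_right tot FG
    _ = _ := by ring

/-- one-body rest `∑_y ν' y K x y` in closed form on the support of `ν` -/
theorem KK_row (d : KD u u' ν ν' k ρ D r H) {x : X} (hx : ν x ≠ 0) :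
    ∑ y, ν' y * KK ν ν' k x y = lam ν ν' k - 1 + lam ν ν' k * (ph ν ν' k x
      * ((∑ y, ν' y * (ph ν' ν (fun y x => k x y) y - 1))
        + ∑ y, ν' y * (k x y * (ph ν' ν (fun y x => k x y) y - 1)))) := by
  have h1 := d.ph_mul hx
  have h2 := d.A_eq x
  have e : ∑ y, ν' y * KK ν ν' k x y
      = lam ν ν' k * (ph ν ν' k x * ((∑ y, ν' y * (1 + k x y))
        + (∑ y, ν' y * (ph ν' ν (fun y x => k x y) y - 1))
        + ∑ y, ν' y * (k x y * (ph ν' ν (fun y x => k x y) y - 1)))) - ∑ y, ν' y := by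
    rw [← Finset.sum_add_distrib, ← Finset.sum_add_distrib, Finset.mul_sum, Finset.mul_sum,
      ← Finset.sum_sub_distrib]
    apply Finset.sum_congr rfl
    intro y _
    unfold KK
    ring
  rw [e, h2, d.sν']
  linear_combination (lam ν ν' k) * h1

theorem KK_row_nm (d : KD u u' ν ν' k ρ D r H) :
    nm ν (fun x => ∑ y, ν' y * KK ν ν' k x y)
      ≤ 4 * ρ ^ 2 * D ^ 2 * H * (1 + H) ^ 2 * r⁻¹ ^ 2 := by
  have d' := d.swap
  have hr := d.inv_r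
  have hr0 : (0:ℝ) ≤ r⁻¹ := le_trans zero_le_one hr
  have hD := d.D1
  have hρ := d.ρ0
  have hH := d.H0
  have hs0 : 0 ≤ √D := Real.sqrt_nonneg _
  set s := ∑ y, ν' y * (ph ν' ν (fun y x => k x y) y - 1) with hs
  set q : X → ℝ := fun x => ∑ y, ν' y * (k x y * (ph ν' ν (fun y x => k x y) y - 1)) with hq
  set g : X → ℝ := fun x => ph ν ν' k x * (s + q x) with hg
  set l := lam ν ν' k with hl
  have l0 : 0 < l := d.lam_pos
  have l2 : l ≤ 2 := d.lam_le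
  -- mean zero
  have hm : l - 1 = - (l * ∑ x, ν x * g x) := by
    have h0 := d.KK_mean
    have e1 : ∑ x, ∑ y, ν x * ν' y * KK ν ν' k x y
        = ∑ x, ν x * (l - 1 + l * g x) := by
      apply Finset.sum_congr rfl
      intro x _
      by_cases hx : ν x = 0
      · simp [hx]
      · have := d.KK_row hx
        rw [show l - 1 + l * g x = ∑ y, ν' y * KK ν ν' k x y from this.symm, Finset.mul_sum]
        exact Finset.sum_congr rfl fun y _ => by ring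
    rw [e1] at h0
    have e2 : ∑ x, ν x * (l - 1 + l * g x) = (l - 1) + l * ∑ x, ν x * g x := by
      simp only [mul_add, Finset.sum_add_distrib, Finset.mul_sum]
      rw [← Finset.sum_mul, d.sν, one_mul]
      congr 1
      exact Finset.sum_congr rfl fun x _ => by ring
    linarith
  have h1 : nm ν (fun x => ∑ y, ν' y * KK ν ν' k x y)
      ≤ nm ν (fun x => l * (g x - ∑ z, ν z * g z)) := by
    apply nm_le_of_abs d.hν
    intro x hx
    rw [show ∑ y, ν' y * KK ν ν' k x y = l - 1 + l * g x from d.KK_row hx, hm]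
    apply le_of_eq
    congr 1
    ring
  have h2 : nm ν (fun x => g x - ∑ z, ν z * g z)
      ≤ nm ν (fun x => s * (ph ν ν' k x - 1) + q x * ph ν ν' k x) := by
    have := nm_centre d.hν d.sν (fun x => s * (ph ν ν' k x - 1) + q x * ph ν ν' k x)
    refine le_trans (le_of_eq ?_) this
    congr 1
    funext x
    have e3 : ∑ z, ν z * g z = s + ∑ z, ν z * (s * (ph ν ν' k z - 1) + q z * ph ν ν' k z) := by
      have : ∀ z, ν z * g z = ν z * s + ν z * (s * (ph ν ν' k z - 1) + q z * ph ν ν' k z) :=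
        fun z => by rw [hg]; ring
      simp only [this, Finset.sum_add_distrib]
      rw [← Finset.sum_mul, d.sν, one_mul]
    rw [e3, hg]
    ring
  have hδ := d.nm_ph_ν
  have hδ' := d'.nm_ph_ν
  have h3 : nm ν q ≤ ρ * D * (r⁻¹ * (√D * (ρ * H))) := by
    refine (d.opν.apply d.hν (mul_nonneg hρ d.D0) _).trans ?_
    exact mul_le_mul_of_nonneg_left hδ' (mul_nonneg hρ d.D0)
  have hs' : |s| ≤ 2 * ρ * H ^ 2 * D * r⁻¹ := d'.mean_ph
  have δ0 : 0 ≤ r⁻¹ * (√D * (ρ * H)) := mul_nonneg hr0 (mul_nonneg hs0 (mul_nonneg hρ hH))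
  have h4 : nm ν (fun x => s * (ph ν ν' k x - 1) + q x * ph ν ν' k x)
      ≤ 2 * ρ * H ^ 2 * D * r⁻¹ * (r⁻¹ * (√D * (ρ * H)))
        + r⁻¹ * (ρ * D * (r⁻¹ * (√D * (ρ * H)))) := by
    refine (nm_add_le d.hν _ _).trans (add_le_add ?_ ?_)
    · rw [nm_smul]
      exact mul_le_mul hs' hδ (nm_nonneg _ _) (le_trans (abs_nonneg _) hs')
    · exact (d.nm_mul_ph q).trans (mul_le_mul_of_nonneg_left h3 hr0)
  have hsD : r⁻¹ * (√D * (ρ * H)) ≤ r⁻¹ * (D * (ρ * H)) :=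
    mul_le_mul_of_nonneg_left (mul_le_mul_of_nonneg_right d.sqD_le (mul_nonneg hρ hH)) hr0
  calc nm ν (fun x => ∑ y, ν' y * KK ν ν' k x y)
      ≤ l * nm ν (fun x => g x - ∑ z, ν z * g z) := by
        refine h1.trans ?_
        rw [nm_smul, abs_of_pos l0]
    _ ≤ 2 * (2 * ρ * H ^ 2 * D * r⁻¹ * (r⁻¹ * (√D * (ρ * H)))
        + r⁻¹ * (ρ * D * (r⁻¹ * (√D * (ρ * H))))) :=
        mul_le_mul l2 (h2.trans h4) (nm_nonneg _ _) (by norm_num)
    _ = (4 * ρ * H ^ 2 * D * r⁻¹ + 2 * (r⁻¹ * ρ * D)) * (r⁻¹ * (√D * (ρ * H))) := by ring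
    _ ≤ (4 * ρ * H ^ 2 * D * r⁻¹ + 2 * (r⁻¹ * ρ * D)) * (r⁻¹ * (D * (ρ * H))) := by
        apply mul_le_mul_of_nonneg_left hsD
        have := d.D0
        positivity
    _ = (ρ ^ 2 * D ^ 2 * H * r⁻¹ ^ 2) * (4 * H ^ 2 + 2) := by ring
    _ ≤ (ρ ^ 2 * D ^ 2 * H * r⁻¹ ^ 2) * (4 * (1 + H) ^ 2) := by
        apply mul_le_mul_of_nonneg_left
        · nlinarith
        · have := d.D0
          positivity
    _ = _ := by ring

/-- the tilt `ε = √λ φ - 1` -/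
noncomputable def ep (ν : X → ℝ) (ν' : Y → ℝ) (k : X → Y → ℝ) (x : X) : ℝ :=
  √(lam ν ν' k) * ph ν ν' k x - 1

theorem sqrt_sub {l : ℝ} (hl : 0 ≤ l) : |√l - 1| ≤ |l - 1| := by
  have h1 : l - 1 = (√l - 1) * (√l + 1) := by
    have := Real.mul_self_sqrt hl; linear_combination -this
  rw [h1, abs_mul]
  have h2 : (1:ℝ) ≤ |√l + 1| := by
    rw [abs_of_pos (by positivity)]
    linarith [Real.sqrt_nonneg l]
  nlinarith [abs_nonneg (√l - 1)]

theorem sqrt_lam_le (d : KD u u' ν ν' k ρ D r H) : √(lam ν ν' k) ≤ 2 := by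
  rw [Real.sqrt_le_left (by norm_num)]
  linarith [d.lam_le]

theorem ep_nm (d : KD u u' ν ν' k ρ D r H) :
    nm u (ep ν ν' k) ≤ 2 * ρ * H * r⁻¹ + 8 * ρ * H ^ 2 * D ^ 2 * r⁻¹ ^ 2 := by
  have e : ep ν ν' k = fun x => √(lam ν ν' k) * (ph ν ν' k x - 1) + (√(lam ν ν' k) - 1) := by
    funext x; unfold ep; ring
  rw [e]
  refine (nm_add_le d.hu _ _).trans (add_le_add ?_ ?_)
  · rw [nm_smul, abs_of_nonneg (Real.sqrt_nonneg _)]
    calc _ ≤ 2 * (r⁻¹ * (ρ * H)) :=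
          mul_le_mul d.sqrt_lam_le d.nm_ph_u (nm_nonneg _ _) (by norm_num)
      _ = _ := by ring
  · rw [nm_const d.su]
    exact (sqrt_sub d.lam_pos.le).trans d.lam_sub

theorem ep_abs (d : KD u u' ν ν' k ρ D r H) (x : X) : |ep ν ν' k x| ≤ 2 * r⁻¹ := by
  have h1 := d.ph_pos x
  have h2 := d.ph_le x
  have h3 := d.sqrt_lam_le
  have h4 := Real.sqrt_nonneg (lam ν ν' k)
  have h5 := d.inv_r
  have h6 : √(lam ν ν' k) * ph ν ν' k x ≤ 2 * r⁻¹ :=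
    mul_le_mul h3 h2 h1.le (by norm_num)
  unfold ep
  rw [abs_le]
  constructor
  · nlinarith [mul_nonneg h4 h1.le]
  · linarith

theorem ep_pos (d : KD u u' ν ν' k ρ D r H) (x : X) : 0 < 1 + ep ν ν' k x := by
  have h1 := d.ph_pos x
  have h2 := Real.sqrt_pos.mpr d.lam_pos
  unfold ep
  have := mul_pos h2 h1
  linarith

theorem EL_swap (ν : X → ℝ) (ν' : Y → ℝ) (k : X → Y → ℝ) :
    EL ν' ν (fun y x => k x y) = EL ν ν' k := by
  unfold EL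
  rw [Finset.sum_comm]
  exact Finset.sum_congr rfl fun x _ => Finset.sum_congr rfl fun y _ => by ring

theorem lam_swap (ν : X → ℝ) (ν' : Y → ℝ) (k : X → Y → ℝ) :
    lam ν' ν (fun y x => k x y) = lam ν ν' k := by unfold lam; rw [EL_swap]

theorem KK_swap (ν : X → ℝ) (ν' : Y → ℝ) (k : X → Y → ℝ) (x : X) (y : Y) :
    KK ν' ν (fun y x => k x y) y x = KK ν ν' k x y := by
  unfold KK; rw [lam_swap ν ν' k]; ring

/-- `1 + K = (1 + ε)(1 + k)(1 + ε')`. -/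
theorem KK_tilt (d : KD u u' ν ν' k ρ D r H) (x : X) (y : Y) :
    1 + KK ν ν' k x y = (1 + ep ν ν' k x) * (1 + k x y) * (1 + ep ν' ν (fun y x => k x y) y) := by
  unfold KK ep
  rw [lam_swap ν ν' k]
  have := Real.mul_self_sqrt d.lam_pos.le
  linear_combination (- ph ν ν' k x * (1 + k x y) * ph ν' ν (fun y x => k x y) y) * this

end KD

/-- **One-body step for one prime.** -/
theorem onebody {u : X → ℝ} {u' : Y → ℝ} {ν : X → ℝ} {ν' : Y → ℝ} {k : X → Y → ℝ}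
    {ρ D r H : ℝ} (d : KD u u' ν ν' k ρ D r H) :
    ∃ (K : X → Y → ℝ) (e : X → ℝ) (e' : Y → ℝ),
      (∀ x y, 1 + K x y = (1 + e x) * (1 + k x y) * (1 + e' y)) ∧
      (∀ x, 0 < 1 + e x) ∧ (∀ y, 0 < 1 + e' y) ∧
      (∀ x, |e x| ≤ 2 * r⁻¹) ∧ (∀ y, |e' y| ≤ 2 * r⁻¹) ∧
      nm u e ≤ 2 * ρ * H * r⁻¹ + 8 * ρ * H ^ 2 * D ^ 2 * r⁻¹ ^ 2 ∧
      nm u' e' ≤ 2 * ρ * H * r⁻¹ + 8 * ρ * H ^ 2 * D ^ 2 * r⁻¹ ^ 2 ∧
      OpB ν ν' K (8 * ρ * D ^ 2 * (1 + H) ^ 2 * r⁻¹ ^ 2) ∧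
      ∑ x, ∑ y, ν x * ν' y * K x y = 0 ∧
      nm ν (fun x => ∑ y, ν' y * K x y) ≤ 4 * ρ ^ 2 * D ^ 2 * H * (1 + H) ^ 2 * r⁻¹ ^ 2 ∧
      nm ν' (fun y => ∑ x, ν x * K x y) ≤ 4 * ρ ^ 2 * D ^ 2 * H * (1 + H) ^ 2 * r⁻¹ ^ 2 := by
  refine ⟨KD.KK ν ν' k, KD.ep ν ν' k, KD.ep ν' ν (fun y x => k x y), d.KK_tilt, d.ep_pos,
    d.swap.ep_pos, d.ep_abs, d.swap.ep_abs, d.ep_nm, d.swap.ep_nm, d.KK_op, d.KK_mean,
    d.KK_row_nm, ?_⟩
  have := d.swap.KK_row_nm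
  simpa only [KD.KK_swap] using this

/-- mixing lemma: no edges between `L` and `S` forces `|L| |S| ≤ ρ² |X| |Y|`. -/
theorem mixing {k : X → Y → ℝ} {ρ : ℝ} (hX : 0 < Fintype.card X)
    (hY : 0 < Fintype.card Y)
    (h : OpB (fun _ : X => (Fintype.card X : ℝ)⁻¹) (fun _ : Y => (Fintype.card Y : ℝ)⁻¹) k ρ)
    (L : Finset X) (S : Finset Y) (h0 : ∀ x ∈ L, ∀ y ∈ S, 1 + k x y = 0) :
    (L.card : ℝ) * S.card ≤ ρ ^ 2 * Fintype.card X * Fintype.card Y := by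
  classical
  have cX : (0:ℝ) < Fintype.card X := by exact_mod_cast hX
  have cY : (0:ℝ) < Fintype.card Y := by exact_mod_cast hY
  set a : ℝ := (Fintype.card X : ℝ)⁻¹ with ha
  set b : ℝ := (Fintype.card Y : ℝ)⁻¹ with hb
  have a0 : 0 < a := inv_pos.mpr cX
  have b0 : 0 < b := inv_pos.mpr cY
  have h1 := h (fun x => if x ∈ L then 1 else 0) (fun y => if y ∈ S then 1 else 0)
  have e1 : ∑ x : X, ∑ y : Y, a * b * ((if x ∈ L then (1:ℝ) else 0) * k x y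
      * (if y ∈ S then (1:ℝ) else 0)) = - (a * b * (L.card * S.card)) := by
    have : ∀ x : X, ∀ y : Y, a * b * ((if x ∈ L then (1:ℝ) else 0) * k x y
      * (if y ∈ S then (1:ℝ) else 0))
        = - (a * b * ((if x ∈ L then (1:ℝ) else 0) * (if y ∈ S then (1:ℝ) else 0))) := by
      intro x y
      by_cases hx : x ∈ L
      · by_cases hy : y ∈ S
        · have := h0 x hx y hy
          have : k x y = -1 := by linarith
          simp [hx, hy, this]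
        · simp [hy]
      · simp [hx]
    simp only [this, Finset.sum_neg_distrib, ← Finset.mul_sum, ← Finset.sum_mul]
    simp
  have e2 : nm (fun _ : X => a) (fun x => if x ∈ L then (1:ℝ) else 0) = √(a * L.card) := by
    unfold nm
    congr 1
    rw [← Finset.mul_sum]
    simp
  have e3 : nm (fun _ : Y => b) (fun y => if y ∈ S then (1:ℝ) else 0) = √(b * S.card) := by
    unfold nm
    congr 1
    rw [← Finset.mul_sum]
    simp
  rw [e1, e2, e3, abs_neg] at h1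
  have l0 : (0:ℝ) ≤ L.card := Nat.cast_nonneg _
  have s0 : (0:ℝ) ≤ S.card := Nat.cast_nonneg _
  rw [abs_of_nonneg (by positivity)] at h1
  have h2 := pow_le_pow_left₀ (by positivity) h1 2
  have e4 : (ρ * √(a * L.card) * √(b * S.card)) ^ 2 = ρ ^ 2 * (a * b * (L.card * S.card)) := by
    rw [mul_pow, mul_pow, Real.sq_sqrt (by positivity), Real.sq_sqrt (by positivity)]
    ring
  rw [e4] at h2
  have h3 : a * b * (L.card * S.card) ≤ ρ ^ 2 := by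
    by_cases hz : (a * b * ((L.card : ℝ) * S.card)) = 0
    · rw [hz]; positivity
    · have hpos : 0 < a * b * ((L.card : ℝ) * S.card) := lt_of_le_of_ne (by positivity) (Ne.symm hz)
      have : a * b * ((L.card : ℝ) * S.card) * (a * b * ((L.card : ℝ) * S.card))
          ≤ ρ ^ 2 * (a * b * ((L.card : ℝ) * S.card)) := by nlinarith
      exact le_of_mul_le_mul_right this hpos
  have e5 : (L.card : ℝ) * S.card
      = (a * b * ((L.card : ℝ) * S.card)) * (Fintype.card X * Fintype.card Y) := by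
    rw [ha, hb]; field_simp
  rw [e5]
  calc _ ≤ ρ ^ 2 * ((Fintype.card X : ℝ) * Fintype.card Y) :=
        mul_le_mul_of_nonneg_right h3 (by positivity)
    _ = _ := by ring

end Vale.Agent.P042.H954
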