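import Vale.Agent.P042.H954.OneBody

/-! P042, row S.5: one prime in the quality of target S (nearly uniform laws). -/

namespace Vale.Agent.P042.H954

open Finset

/-- hypotheses of one prime in target S: `ν, ν' ≤ (1+ε)/p`, kernel `-1 ≤ k ≤ B`, doubly centred,
operator norm `ρ` with respect to the uniform weights. -/
structure SD {X Y : Type*} [Fintype X] [Fintype Y] (ν : X → ℝ) (ν' : Y → ℝ) (k : X → Y → ℝ)
    (ρ B ε : ℝ) : Prop where
  hν : ∀ x, 0 ≤ ν x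
  hν' : ∀ y, 0 ≤ ν' y
  sν : ∑ x, ν x = 1
  sν' : ∑ y, ν' y = 1
  uν : ∀ x, ν x ≤ (1 + ε) * (Fintype.card X : ℝ)⁻¹
  uν' : ∀ y, ν' y ≤ (1 + ε) * (Fintype.card Y : ℝ)⁻¹
  ck : ∀ x, ∑ y, k x y = 0
  ck' : ∀ y, ∑ x, k x y = 0
  op : OpB (fun _ : X => (Fintype.card X : ℝ)⁻¹) (fun _ : Y => (Fintype.card Y : ℝ)⁻¹) k ρ
  lo : ∀ x y, -1 ≤ k x y
  up : ∀ x y, k x y ≤ B
  ρ0 : 0 ≤ ρ
  ρ1 : ρ ≤ 1
  ε0 : 0 ≤ ε
  ε1 : ε ≤ 1 / 100
  Bε : (1 + B) * ε ≤ 1 / 2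

namespace SD

variable {X Y : Type*} [Fintype X] [Fintype Y] {ν : X → ℝ} {ν' : Y → ℝ} {k : X → Y → ℝ}
  {ρ B ε : ℝ}

theorem swap (d : SD ν ν' k ρ B ε) : SD ν' ν (fun y x => k x y) ρ B ε where
  hν := d.hν'
  hν' := d.hν
  sν := d.sν'
  sν' := d.sν
  uν := d.uν'
  uν' := d.uν
  ck := d.ck'
  ck' := d.ck
  op := d.op.swap
  lo := fun y x => d.lo x y
  up := fun y x => d.up x y
  ρ0 := d.ρ0
  ρ1 := d.ρ1
  ε0 := d.ε0
  ε1 := d.ε1
  Bε := d.Bε

theorem card_pos (d : SD ν ν' k ρ B ε) : 0 < (Fintype.card X : ℝ) := by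
  have h : 0 < Fintype.card X := by
    rcases Nat.eq_zero_or_pos (Fintype.card X) with h | h
    · have : IsEmpty X := Fintype.card_eq_zero_iff.mp h
      have := d.sν
      simp at this
    · exact h
  exact_mod_cast h

theorem sum_u (d : SD ν ν' k ρ B ε) : ∑ _x : X, (Fintype.card X : ℝ)⁻¹ = 1 := by
  rw [sum_const, card_univ, nsmul_eq_mul]
  exact mul_inv_cancel₀ (ne_of_gt d.card_pos)

/-- the density minus one, `h x = card X * ν x - 1` -/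
theorem h_sum (d : SD ν ν' k ρ B ε) :
    ∑ x, (Fintype.card X : ℝ)⁻¹ * ((Fintype.card X : ℝ) * ν x - 1) = 0 := by
  have hc := ne_of_gt d.card_pos
  have : ∀ x : X, (Fintype.card X : ℝ)⁻¹ * ((Fintype.card X : ℝ) * ν x - 1)
      = ν x - (Fintype.card X : ℝ)⁻¹ := fun x => by field_simp
  simp only [this, sum_sub_distrib, d.sν, d.sum_u, sub_self]

theorem h_le (d : SD ν ν' k ρ B ε) (x : X) : (Fintype.card X : ℝ) * ν x - 1 ≤ ε := by
  have h1 := d.uν x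
  have h2 := mul_le_mul_of_nonneg_left h1 d.card_pos.le
  have h3 : (Fintype.card X : ℝ) * ((1 + ε) * (Fintype.card X : ℝ)⁻¹) = 1 + ε := by
    have hc := ne_of_gt d.card_pos
    field_simp
  linarith

theorem h_ge (d : SD ν ν' k ρ B ε) (x : X) : -1 ≤ (Fintype.card X : ℝ) * ν x - 1 := by
  have := mul_nonneg d.card_pos.le (d.hν x)
  linarith

/-- positive part: `∑ u max h 0 ≤ ε` -/
theorem h_pos_sum (d : SD ν ν' k ρ B ε) :
    ∑ x, (Fintype.card X : ℝ)⁻¹ * max ((Fintype.card X : ℝ) * ν x - 1) 0 ≤ ε := by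
  calc ∑ x, (Fintype.card X : ℝ)⁻¹ * max ((Fintype.card X : ℝ) * ν x - 1) 0
      ≤ ∑ x : X, (Fintype.card X : ℝ)⁻¹ * ε := by
        apply sum_le_sum
        intro x _
        exact mul_le_mul_of_nonneg_left (max_le (d.h_le x) d.ε0) (inv_nonneg.mpr d.card_pos.le)
    _ = ε := by rw [← sum_mul, d.sum_u, one_mul]

/-- negative part: `∑ u max (-h) 0 ≤ ε` -/
theorem h_neg_sum (d : SD ν ν' k ρ B ε) :
    ∑ x, (Fintype.card X : ℝ)⁻¹ * max (-((Fintype.card X : ℝ) * ν x - 1)) 0 ≤ ε := by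
  have e : ∀ x, (Fintype.card X : ℝ)⁻¹ * max (-((Fintype.card X : ℝ) * ν x - 1)) 0
      = (Fintype.card X : ℝ)⁻¹ * max ((Fintype.card X : ℝ) * ν x - 1) 0
        - (Fintype.card X : ℝ)⁻¹ * ((Fintype.card X : ℝ) * ν x - 1) := by
    intro x
    rw [← mul_sub]
    congr 1
    rcases le_total 0 ((Fintype.card X : ℝ) * ν x - 1) with h | h
    · rw [max_eq_left h, max_eq_right (by linarith)]; ring
    · rw [max_eq_right h, max_eq_left (by linarith)]; ring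
  simp only [e, sum_sub_distrib, d.h_sum, sub_zero]
  exact d.h_pos_sum

/-- `‖h‖² ≤ 2 ε` -/
theorem h_sq (d : SD ν ν' k ρ B ε) :
    ∑ x, (Fintype.card X : ℝ)⁻¹ * ((Fintype.card X : ℝ) * ν x - 1) ^ 2 ≤ 2 * ε := by
  have u0 : 0 ≤ (Fintype.card X : ℝ)⁻¹ := inv_nonneg.mpr d.card_pos.le
  calc ∑ x, (Fintype.card X : ℝ)⁻¹ * ((Fintype.card X : ℝ) * ν x - 1) ^ 2
      ≤ ∑ x, ((Fintype.card X : ℝ)⁻¹ * max ((Fintype.card X : ℝ) * ν x - 1) 0
          + (Fintype.card X : ℝ)⁻¹ * max (-((Fintype.card X : ℝ) * ν x - 1)) 0) := by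
        apply sum_le_sum
        intro x _
        rw [← mul_add]
        apply mul_le_mul_of_nonneg_left _ u0
        have h1 := d.h_le x
        have h2 := d.h_ge x
        have h3 := d.ε1
        rcases le_total 0 ((Fintype.card X : ℝ) * ν x - 1) with h | h
        · rw [max_eq_left h, max_eq_right (by linarith)]
          nlinarith
        · rw [max_eq_right h, max_eq_left (by linarith)]
          nlinarith
    _ ≤ ε + ε := by rw [sum_add_distrib]; exact add_le_add d.h_pos_sum d.h_neg_sum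
    _ = 2 * ε := by ring

theorem nm_h (d : SD ν ν' k ρ B ε) :
    nm (fun _ : X => (Fintype.card X : ℝ)⁻¹) (fun x => ν x / (Fintype.card X : ℝ)⁻¹ - 1)
      ≤ √(2 * ε) := by
  unfold nm
  apply Real.sqrt_le_sqrt
  refine le_trans (le_of_eq ?_) d.h_sq
  apply sum_congr rfl
  intro x _
  show (Fintype.card X : ℝ)⁻¹ * (ν x / (Fintype.card X : ℝ)⁻¹ - 1) ^ 2 = _
  rw [div_inv_eq_mul, mul_comm (ν x)]

/-- **row sums are at least one half** -/
theorem row (d : SD ν ν' k ρ B ε) (x : X) : (1:ℝ) / 2 ≤ ∑ y, ν' y * (1 + k x y) := by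
  have d' := d.swap
  have u0 : 0 ≤ (Fintype.card Y : ℝ)⁻¹ := inv_nonneg.mpr d'.card_pos.le
  have hc := ne_of_gt d'.card_pos
  have e : ∀ y, ν' y * (1 + k x y) = (Fintype.card Y : ℝ)⁻¹ * (1 + k x y)
      + (Fintype.card Y : ℝ)⁻¹ * ((1 + k x y) * ((Fintype.card Y : ℝ) * ν' y - 1)) := by
    intro y
    field_simp
    ring
  simp only [e, sum_add_distrib]
  have h1 : ∑ y, (Fintype.card Y : ℝ)⁻¹ * (1 + k x y) = 1 := by
    simp only [mul_add, mul_one, sum_add_distrib]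
    rw [← mul_sum, d.ck x, mul_zero, add_zero]
    exact d'.sum_u
  rw [h1]
  have h2 : ∀ y, -((1 + B) * ((Fintype.card Y : ℝ)⁻¹ *
      max (-((Fintype.card Y : ℝ) * ν' y - 1)) 0))
      ≤ (Fintype.card Y : ℝ)⁻¹ * ((1 + k x y) * ((Fintype.card Y : ℝ) * ν' y - 1)) := by
    intro y
    have l := d.lo x y
    have up := d.up x y
    rcases le_total 0 ((Fintype.card Y : ℝ) * ν' y - 1) with h | h
    · rw [max_eq_right (by linarith), mul_zero, mul_zero, neg_zero]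
      exact mul_nonneg u0 (mul_nonneg (by linarith) h)
    · rw [max_eq_left (by linarith)]
      have h3 : (1 + k x y) * (-((Fintype.card Y : ℝ) * ν' y - 1))
          ≤ (1 + B) * (-((Fintype.card Y : ℝ) * ν' y - 1)) :=
        mul_le_mul_of_nonneg_right (by linarith) (by linarith)
      have h4 := mul_le_mul_of_nonneg_left h3 u0
      linarith
  have h3 := sum_le_sum fun y (_ : y ∈ (univ : Finset Y)) => h2 y
  rw [sum_neg_distrib, ← mul_sum] at h3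
  have h4 := d'.h_neg_sum
  have hB : 0 ≤ 1 + B := by
    by_contra hB
    push Not at hB
    obtain ⟨x0⟩ : Nonempty X := ⟨x⟩
    obtain ⟨y0⟩ : Nonempty Y := by
      by_contra hne
      rw [not_nonempty_iff] at hne
      have := d.sν'
      simp at this
    have := d.lo x0 y0
    have := d.up x0 y0
    linarith
  have h5 := mul_le_mul_of_nonneg_left h4 hB
  have h6 := d.Bε
  linarith

/-- the hypotheses of the one-body step -/
theorem kd (d : SD ν ν' k ρ B ε) :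
    KD (fun _ : X => (Fintype.card X : ℝ)⁻¹) (fun _ : Y => (Fintype.card Y : ℝ)⁻¹) ν ν' k
      ρ (1 + ε) (1 / 2) √(2 * ε) where
  hu := fun _ => inv_nonneg.mpr d.card_pos.le
  hu' := fun _ => inv_nonneg.mpr d.swap.card_pos.le
  hν := d.hν
  hν' := d.hν'
  su := d.sum_u
  su' := d.swap.sum_u
  sν := d.sν
  sν' := d.sν'
  dν := d.uν
  dν' := d.uν'
  ck := fun x => by rw [← mul_sum, d.ck x, mul_zero]
  ck' := fun y => by rw [← mul_sum, d.ck' y, mul_zero]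
  op := d.op
  hH := d.nm_h
  hH' := d.swap.nm_h
  row := fun x _ => d.row x
  row' := fun y _ => d.swap.row y
  r0 := by norm_num
  r1 := by norm_num
  D1 := by linarith [d.ε0]
  ρ0 := d.ρ0
  ρ1 := d.ρ1
  H0 := Real.sqrt_nonneg _
  small := by
    rw [Real.sq_sqrt (by linarith [d.ε0])]
    have h1 := d.ε0
    have h2 := d.ε1
    have h3 := d.ρ0
    have h4 := d.ρ1
    have h5 : (1 + ε) ^ 2 ≤ 5 / 4 := by nlinarith
    have h6 : 8 * ρ * (2 * ε) ≤ 16 / 100 := by nlinarith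
    have h7 : 0 ≤ 8 * ρ * (2 * ε) := by positivity
    calc 8 * ρ * (2 * ε) * (1 + ε) ^ 2 ≤ 16 / 100 * (5 / 4) :=
          mul_le_mul h6 h5 (sq_nonneg _) (by norm_num)
      _ ≤ (1 / 2) ^ 2 := by norm_num

theorem H_le (d : SD ν ν' k ρ B ε) : √(2 * ε) ≤ 71 / 500 := by
  rw [Real.sqrt_le_left (by norm_num)]
  have := d.ε1
  norm_num
  linarith

theorem sqrt_two_mul (ε : ℝ) : √(2 * ε) ≤ 71 / 50 * √ε := by
  rw [Real.sqrt_mul (by norm_num)]
  apply mul_le_mul_of_nonneg_right _ (Real.sqrt_nonneg _)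
  rw [Real.sqrt_le_left (by norm_num)]
  norm_num

theorem c1 (d : SD ν ν' k ρ B ε) :
    8 * ρ * (1 + ε) ^ 2 * (1 + √(2 * ε)) ^ 2 * (1 / 2 : ℝ)⁻¹ ^ 2 ≤ 48 * ρ := by
  have h1 := d.ε0
  have h2 := d.ε1
  have h3 := d.ρ0
  have h5 : (1 + ε) ^ 2 ≤ 103 / 100 := by nlinarith
  have hs := Real.sqrt_nonneg (2 * ε)
  have h6 : (1 + √(2 * ε)) ^ 2 ≤ 131 / 100 := by
    have := d.H_le
    nlinarith
  have h7 : (1 + ε) ^ 2 * (1 + √(2 * ε)) ^ 2 ≤ 103 / 100 * (131 / 100) :=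
    mul_le_mul h5 h6 (sq_nonneg _) (by norm_num)
  calc _ = 32 * ρ * ((1 + ε) ^ 2 * (1 + √(2 * ε)) ^ 2) := by norm_num; ring
    _ ≤ 32 * ρ * (103 / 100 * (131 / 100)) := mul_le_mul_of_nonneg_left h7 (by positivity)
    _ ≤ 48 * ρ := by nlinarith

theorem c2 (d : SD ν ν' k ρ B ε) :
    4 * ρ ^ 2 * (1 + ε) ^ 2 * √(2 * ε) * (1 + √(2 * ε)) ^ 2 * (1 / 2 : ℝ)⁻¹ ^ 2
      ≤ 32 * ρ ^ 2 * √ε := by
  have h1 := d.ε0
  have h2 := d.ε1
  have h5 : (1 + ε) ^ 2 ≤ 103 / 100 := by nlinarith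
  have hs := Real.sqrt_nonneg (2 * ε)
  have hs' := Real.sqrt_nonneg ε
  have h6 : (1 + √(2 * ε)) ^ 2 ≤ 131 / 100 := by
    have := d.H_le
    nlinarith
  have h7 : (1 + ε) ^ 2 * (1 + √(2 * ε)) ^ 2 ≤ 103 / 100 * (131 / 100) :=
    mul_le_mul h5 h6 (sq_nonneg _) (by norm_num)
  have hρ : 0 ≤ ρ ^ 2 := sq_nonneg _
  calc _ = 16 * ρ ^ 2 * (√(2 * ε) * ((1 + ε) ^ 2 * (1 + √(2 * ε)) ^ 2)) := by norm_num; ring
    _ ≤ 16 * ρ ^ 2 * ((71 / 50 * √ε) * (103 / 100 * (131 / 100))) := by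
        apply mul_le_mul_of_nonneg_left _ (by positivity)
        exact mul_le_mul (sqrt_two_mul ε) h7 (by positivity) (by positivity)
    _ = (16 * (71 / 50) * (103 / 100 * (131 / 100))) * (ρ ^ 2 * √ε) := by ring
    _ ≤ 32 * (ρ ^ 2 * √ε) := by
        apply mul_le_mul_of_nonneg_right _ (by positivity)
        norm_num
    _ = _ := by ring

theorem c3 (d : SD ν ν' k ρ B ε) :
    2 * ρ * √(2 * ε) * (1 / 2 : ℝ)⁻¹ + 8 * ρ * √(2 * ε) ^ 2 * (1 + ε) ^ 2 * (1 / 2 : ℝ)⁻¹ ^ 2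
      ≤ 16 * ρ * √ε := by
  have h1 := d.ε0
  have h2 := d.ε1
  have h3 := d.ρ0
  have h5 : (1 + ε) ^ 2 ≤ 103 / 100 := by nlinarith
  have hs := Real.sqrt_nonneg (2 * ε)
  have hs' := Real.sqrt_nonneg ε
  have hH := d.H_le
  have h7 : √(2 * ε) * (1 + ε) ^ 2 ≤ 71 / 500 * (103 / 100) :=
    mul_le_mul hH h5 (sq_nonneg _) (by norm_num)
  calc _ = ρ * √(2 * ε) * (4 + 32 * (√(2 * ε) * (1 + ε) ^ 2)) := by norm_num; ring
    _ ≤ ρ * √(2 * ε) * (4 + 32 * (71 / 500 * (103 / 100))) := by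
        apply mul_le_mul_of_nonneg_left _ (by positivity)
        linarith
    _ ≤ ρ * (71 / 50 * √ε) * (4 + 32 * (71 / 500 * (103 / 100))) := by
        apply mul_le_mul_of_nonneg_right _ (by norm_num)
        exact mul_le_mul_of_nonneg_left (sqrt_two_mul ε) h3
    _ = (71 / 50 * (4 + 32 * (71 / 500 * (103 / 100)))) * (ρ * √ε) := by ring
    _ ≤ 16 * (ρ * √ε) := by
        apply mul_le_mul_of_nonneg_right _ (by positivity)
        norm_num
    _ = _ := by ring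

end SD

/-- **One prime in target S.** -/
theorem prime_S {X Y : Type*} [Fintype X] [Fintype Y] {ν : X → ℝ} {ν' : Y → ℝ} {k : X → Y → ℝ}
    {ρ B ε : ℝ} (d : SD ν ν' k ρ B ε) :
    ∃ (K : X → Y → ℝ) (e : X → ℝ) (e' : Y → ℝ),
      (∀ x y, 1 + K x y = (1 + e x) * (1 + k x y) * (1 + e' y)) ∧
      (∀ x, 0 < 1 + e x) ∧ (∀ y, 0 < 1 + e' y) ∧
      (∀ x, |e x| ≤ 4) ∧ (∀ y, |e' y| ≤ 4) ∧
      nm (fun _ : X => (Fintype.card X : ℝ)⁻¹) e ≤ 16 * ρ * √ε ∧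
      nm (fun _ : Y => (Fintype.card Y : ℝ)⁻¹) e' ≤ 16 * ρ * √ε ∧
      OpB ν ν' K (48 * ρ) ∧
      ∑ x, ∑ y, ν x * ν' y * K x y = 0 ∧
      nm ν (fun x => ∑ y, ν' y * K x y) ≤ 32 * ρ ^ 2 * √ε ∧
      nm ν' (fun y => ∑ x, ν x * K x y) ≤ 32 * ρ ^ 2 * √ε := by
  obtain ⟨K, e, e', h1, h2, h3, h4, h5, h6, h7, h8, h9, h10, h11⟩ := onebody d.kd
  refine ⟨K, e, e', h1, h2, h3, ?_, ?_, h6.trans d.c3, h7.trans d.c3, ?_, h9, h10.trans d.c2,
    h11.trans d.c2⟩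
  · intro x
    refine (h4 x).trans (by norm_num)
  · intro y
    refine (h5 y).trans (by norm_num)
  · intro f g
    refine (h8 f g).trans ?_
    exact mul_le_mul_of_nonneg_right (mul_le_mul_of_nonneg_right d.c1 (nm_nonneg ν f))
      (nm_nonneg ν' g)

end Vale.Agent.P042.H954
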